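import Vale.Agent.H47.Howie.Tower

/-!
# Howie's property for abelian groups, and for groups that are locally abelian-or-indicable

Every nonsingular finite system of equations over an abelian group `A` is solvable over `A`, in
the abelian group `(A × ℤ^n) / ⟨images of the equations⟩`.  Combined with the tower theorem this
gives Howie's property for every group all of whose finitely generated subgroups are abelian or
map onto `ℤ`.
-/

namespace Vale.Agent.H47.Howie

open Monoid (Coprod)

universe u

section Abelian

variable {A : Type u} [CommGroup A] {m n : ℕ}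

/-- The abelianising homomorphism `A * F_n → A × ℤ^n`. -/
def abMap (A : Type u) [CommGroup A] (n : ℕ) :
    Coprod A (FreeGroup (Fin n)) →* A × Multiplicative (Fin n → ℤ) :=
  Coprod.lift (MonoidHom.inl A (Multiplicative (Fin n → ℤ)))
    ((MonoidHom.inr A (Multiplicative (Fin n → ℤ))).comp
      (FreeGroup.lift fun j => Multiplicative.ofAdd (Pi.single j (1 : ℤ))))

lemma abMap_snd (z : Coprod A (FreeGroup (Fin n))) : (abMap A n z).2 = expSum A n z := by
  have h : (MonoidHom.snd A (Multiplicative (Fin n → ℤ))).comp (abMap A n) = expSum A n := by
    apply Coprod.hom_ext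
    · ext a
      simp [abMap, expSum]
    · ext j
      simp [abMap, expSum]
  exact DFunLike.congr_fun h z

lemma mem_closure_range_comm {T : Type*} [CommGroup T] (z : Fin m → T) {x : T}
    (hx : x ∈ Subgroup.closure (Set.range z)) : ∃ k : Fin m → ℤ, x = ∏ i, z i ^ k i := by
  classical
  induction hx using Subgroup.closure_induction with
  | mem x hx =>
    obtain ⟨i, rfl⟩ := hx
    refine ⟨Pi.single i 1, ?_⟩
    rw [Finset.prod_eq_single i]
    · simp
    · intro j _ hj
      simp [hj]
    · intro hi
      exact absurd (Finset.mem_univ i) hi
  | one => exact ⟨0, by simp⟩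
  | mul x y _ _ hx hy =>
    obtain ⟨k1, rfl⟩ := hx
    obtain ⟨k2, rfl⟩ := hy
    exact ⟨k1 + k2, by simp [zpow_add, Finset.prod_mul_distrib]⟩
  | inv x _ hx =>
    obtain ⟨k, rfl⟩ := hx
    exact ⟨-k, by simp [Finset.prod_inv_distrib]⟩

/-- Every nonsingular finite system over an abelian group is solvable. -/
theorem howieProperty_commGroup (A : Type u) [CommGroup A] : HowieProperty A := by
  classical
  intro m n w hw
  let z : Fin m → A × Multiplicative (Fin n → ℤ) := fun i => abMap A n (w i)
  let R : Subgroup (A × Multiplicative (Fin n → ℤ)) := Subgroup.closure (Set.range z)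
  refine ⟨(A × Multiplicative (Fin n → ℤ)) ⧸ R, inferInstance,
    (QuotientGroup.mk' R).comp (MonoidHom.inl A (Multiplicative (Fin n → ℤ))),
    fun j => QuotientGroup.mk' R (1, Multiplicative.ofAdd (Pi.single j (1 : ℤ))), ?_, ?_⟩
  · rw [injective_iff_map_eq_one]
    intro a ha
    have haR : ((a, 1) : A × Multiplicative (Fin n → ℤ)) ∈ R := by
      simpa [QuotientGroup.eq_one_iff] using ha
    obtain ⟨k, hk⟩ := mem_closure_range_comm z haR
    -- the second component forces `k = 0`
    have h2 : ∑ i, k i • Multiplicative.toAdd (expSum A n (w i)) = 0 := by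
      have := congrArg Prod.snd hk
      simp only [Prod.snd_prod, Prod.pow_snd, z, abMap_snd] at this
      have h3 := congrArg Multiplicative.toAdd this
      simpa [toAdd_prod, toAdd_zpow] using h3.symm
    have hk0 : ∀ i, k i = 0 := by
      have hli := Fintype.linearIndependent_iff.mp hw (fun i => (k i : ℚ)) (by
        funext j
        have h4 := congrFun h2 j
        simp only [Finset.sum_apply, Pi.smul_apply, smul_eq_mul, Pi.zero_apply] at h4 ⊢
        have h5 := congrArg (Int.cast : ℤ → ℚ) h4
        push_cast at h5
        exact h5)
      intro i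
      exact_mod_cast hli i
    have h1 := congrArg Prod.fst hk
    simp only [hk0, zpow_zero, Finset.prod_const_one, Prod.fst_one] at h1
    exact h1
  · intro i
    have hlift : Coprod.lift
        ((QuotientGroup.mk' R).comp (MonoidHom.inl A (Multiplicative (Fin n → ℤ))))
        (FreeGroup.lift fun j =>
          QuotientGroup.mk' R (1, Multiplicative.ofAdd (Pi.single j (1 : ℤ)))) =
        (QuotientGroup.mk' R).comp (abMap A n) := by
      apply Coprod.hom_ext
      · ext a
        simp [abMap]
      · ext j
        simp [abMap]
    rw [hlift, MonoidHom.comp_apply]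
    exact (QuotientGroup.eq_one_iff _).mpr (Subgroup.subset_closure ⟨i, rfl⟩)

/-- Howie's property for a group in which any two elements commute. -/
theorem howieProperty_of_comm {A : Type u} [inst : Group A] (hc : ∀ a b : A, a * b = b * a) :
    HowieProperty A := by
  let _ : CommGroup A := { inst with mul_comm := hc }
  exact howieProperty_commGroup A

end Abelian

section Classes

variable {G : Type u} [Group G]

/-- **Theorem.** If every finitely generated subgroup of `G` is abelian or maps onto `ℤ`, then
every nonsingular finite system of equations over `G` is solvable over `G`. -/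
theorem howieProperty_of_fg_abelian_or_indicable
    (h : ∀ H : Subgroup G, H.FG → (∀ a ∈ H, ∀ b ∈ H, a * b = b * a) ∨
      ∃ θ : H →* Multiplicative ℤ, Function.Surjective θ) : HowieProperty G := by
  apply howieProperty_of_fg_dichotomy
  intro H hFG
  rcases h H hFG with hc | hθ
  · exact Or.inl (howieProperty_of_comm (fun a b => Subtype.ext (hc a a.2 b b.2)))
  · exact Or.inr hθ

/-- **Corollary.** If `G` has an abelian normal subgroup `N` with `G ⧸ N` locally indicable, then
every nonsingular finite system of equations over `G` is solvable over `G`. -/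
theorem howieProperty_of_abelian_by_locallyIndicable (N : Subgroup G) [N.Normal]
    (hN : ∀ a ∈ N, ∀ b ∈ N, a * b = b * a)
    (hLI : ∀ H : Subgroup (G ⧸ N), H.FG → H ≠ ⊥ →
      ∃ θ : H →* Multiplicative ℤ, Function.Surjective θ) : HowieProperty G :=
  howieProperty_of_locallyIndicable_quotient N hLI
    (howieProperty_of_comm (fun a b => Subtype.ext (hN a a.2 b b.2)))

end Classes

end Vale.Agent.H47.Howie
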