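import Vale.Agent.H47.Howie.Defs

/-!
# Compactness: from finite systems to arbitrary systems

If every nonsingular finite system over `N` is solvable over `N`, then every system over `N`
(with arbitrary index types) whose exponent-sum rows are linearly independent over `ℚ` is
solvable over `N`.
-/

namespace Vale.Agent.H47.Howie

open Monoid (Coprod)

universe u

/-- The exponent-sum homomorphism for an arbitrary type `X` of unknowns, with values in the
finitely supported functions `X →₀ ℚ` (written multiplicatively). -/
noncomputable def expRow (N : Type*) [Group N] (X : Type*) :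
    Coprod N (FreeGroup X) →* Multiplicative (X →₀ ℚ) :=
  Coprod.lift 1 (FreeGroup.lift fun x => Multiplicative.ofAdd (Finsupp.single x (1 : ℚ)))

lemma expRow_map (N : Type*) [Group N] {Y X : Type*} (e : Y → X)
    (z : Coprod N (FreeGroup Y)) :
    Multiplicative.toAdd (expRow N X (Coprod.map (MonoidHom.id N) (FreeGroup.map e) z)) =
      Finsupp.mapDomain e (Multiplicative.toAdd (expRow N Y z)) := by
  have h : (expRow N X).comp (Coprod.map (MonoidHom.id N) (FreeGroup.map e)) =
      (AddMonoidHom.toMultiplicative (Finsupp.mapDomain.addMonoidHom e)).comp (expRow N Y) := by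
    apply Coprod.hom_ext
    · ext g
      simp [expRow]
    · ext y
      simp [expRow]
  have := DFunLike.congr_fun h z
  simpa using congrArg Multiplicative.toAdd this

lemma expRow_fin (N : Type*) [Group N] (n : ℕ) (z : Coprod N (FreeGroup (Fin n))) :
    Multiplicative.toAdd (expRow N (Fin n) z) =
      Finsupp.equivFunOnFinite.symm
        (fun j : Fin n => ((Multiplicative.toAdd (expSum N n z) j : ℤ) : ℚ)) := by
  have h : (AddMonoidHom.toMultiplicative
        (Finsupp.coeFnAddHom : (Fin n →₀ ℚ) →+ (Fin n → ℚ))).comp (expRow N (Fin n)) =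
      (AddMonoidHom.toMultiplicative ((Int.castAddHom ℚ).compLeft (Fin n))).comp
        (expSum N n) := by
    apply Coprod.hom_ext
    · ext g
      simp [expRow, expSum]
    · refine FreeGroup.ext_hom _ _ fun y => ?_
      apply Multiplicative.toAdd.injective
      funext k
      simp [expRow, expSum, Finsupp.single_apply, Pi.single_apply, eq_comm]
  have h2 := congrArg Multiplicative.toAdd (DFunLike.congr_fun h z)
  apply Finsupp.equivFunOnFinite.injective
  rw [Equiv.apply_symm_apply]
  funext j
  have h3 := congrFun h2 j
  simpa using h3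

section NormalClosure

variable {K : Type*} [Group K]

lemma exists_finset_normalClosure {I : Type*} (S : I → K) {z : K}
    (hz : z ∈ Subgroup.normalClosure (Set.range S)) :
    ∃ T : Finset I, z ∈ Subgroup.normalClosure (S '' (T : Set I)) := by
  classical
  unfold Subgroup.normalClosure at hz
  induction hz using Subgroup.closure_induction with
  | mem x hx =>
    rw [Group.mem_conjugatesOfSet_iff] at hx
    obtain ⟨b, ⟨i, rfl⟩, hb⟩ := hx
    refine ⟨{i}, ?_⟩
    have h1 : S i ∈ Subgroup.normalClosure (S '' (({i} : Finset I) : Set I)) :=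
      Subgroup.subset_normalClosure ⟨i, by simp, rfl⟩
    obtain ⟨c, rfl⟩ := isConj_iff.mp hb
    exact Subgroup.Normal.conj_mem Subgroup.normalClosure_normal _ h1 c
  | one => exact ⟨∅, one_mem _⟩
  | mul x y _ _ hx hy =>
    obtain ⟨T1, h1⟩ := hx
    obtain ⟨T2, h2⟩ := hy
    refine ⟨T1 ∪ T2, mul_mem ?_ ?_⟩
    · exact Subgroup.normalClosure_mono (Set.image_mono (by simp)) h1
    · exact Subgroup.normalClosure_mono (Set.image_mono (by simp)) h2
  | inv x _ hx =>
    obtain ⟨T, h⟩ := hx
    exact ⟨T, inv_mem h⟩

end NormalClosure

section Letters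

variable (N : Type*) [Group N] (X : Type*)

/-- The subgroup of `N * F(X)` generated by `N` and the letters in `Y`. -/
def lettersSubgroup (Y : Finset X) : Subgroup (Coprod N (FreeGroup X)) :=
  Subgroup.closure (Set.range (Coprod.inl : N →* Coprod N (FreeGroup X)) ∪
    (fun x => (Coprod.inr (FreeGroup.of x) : Coprod N (FreeGroup X))) '' (Y : Set X))

variable {N X}

lemma lettersSubgroup_mono {Y Y' : Finset X} (h : Y ⊆ Y') :
    lettersSubgroup N X Y ≤ lettersSubgroup N X Y' := by
  apply Subgroup.closure_mono
  apply Set.union_subset_union_right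
  exact Set.image_mono (by exact_mod_cast h)

lemma exists_lettersSubgroup (z : Coprod N (FreeGroup X)) :
    ∃ Y : Finset X, z ∈ lettersSubgroup N X Y := by
  classical
  induction z using Coprod.induction_on with
  | inl g => exact ⟨∅, Subgroup.subset_closure (Or.inl ⟨g, rfl⟩)⟩
  | inr x =>
    induction x using FreeGroup.induction_on with
    | C1 => exact ⟨∅, by simp [one_mem]⟩
    | of x => exact ⟨{x}, Subgroup.subset_closure (Or.inr ⟨x, by simp, rfl⟩)⟩
    | inv_of x ih =>
      obtain ⟨Y, hY⟩ := ih
      exact ⟨Y, by simpa using inv_mem hY⟩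
    | mul x y ihx ihy =>
      obtain ⟨Y1, h1⟩ := ihx
      obtain ⟨Y2, h2⟩ := ihy
      refine ⟨Y1 ∪ Y2, ?_⟩
      rw [map_mul]
      exact mul_mem (lettersSubgroup_mono Finset.subset_union_left h1)
        (lettersSubgroup_mono Finset.subset_union_right h2)
  | mul x y ihx ihy =>
    obtain ⟨Y1, h1⟩ := ihx
    obtain ⟨Y2, h2⟩ := ihy
    exact ⟨Y1 ∪ Y2, mul_mem (lettersSubgroup_mono Finset.subset_union_left h1)
      (lettersSubgroup_mono Finset.subset_union_right h2)⟩

lemma lettersSubgroup_le_range (Y : Finset X) {n : ℕ} (e : Fin n → X)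
    (he : ∀ x ∈ Y, ∃ k, e k = x) :
    lettersSubgroup N X Y ≤ (Coprod.map (MonoidHom.id N) (FreeGroup.map e)).range := by
  unfold lettersSubgroup
  rw [Subgroup.closure_le]
  rintro z (⟨g, rfl⟩ | ⟨x, hx, rfl⟩)
  · exact ⟨Coprod.inl g, by simp⟩
  · obtain ⟨k, rfl⟩ := he x hx
    exact ⟨Coprod.inr (FreeGroup.of k), by simp⟩

end Letters

/-- Compactness: if every nonsingular finite system over `N` is solvable, then every system
over `N`, with arbitrary index types, whose exponent-sum rows are linearly independent over
`ℚ` is solvable over `N`. -/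
theorem solvable_of_linearIndependent {N : Type u} [Group N] (hN : HowieProperty N)
    {I : Type*} {X : Type u} (S : I → Coprod N (FreeGroup X))
    (hS : LinearIndependent ℚ fun i => Multiplicative.toAdd (expRow N X (S i))) :
    ∃ (H : Type u) (_ : Group H) (ι : N →* H) (η : X → H),
      Function.Injective ι ∧ ∀ i, Coprod.lift ι (FreeGroup.lift η) (S i) = 1 := by
  classical
  let R : Subgroup (Coprod N (FreeGroup X)) := Subgroup.normalClosure (Set.range S)
  refine ⟨Coprod N (FreeGroup X) ⧸ R, inferInstance, (QuotientGroup.mk' R).comp Coprod.inl,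
    fun x => QuotientGroup.mk' R (Coprod.inr (FreeGroup.of x)), ?_, ?_⟩
  · rw [injective_iff_map_eq_one]
    intro g hg
    have hgR : (Coprod.inl g : Coprod N (FreeGroup X)) ∈ R := by
      simpa [QuotientGroup.eq_one_iff] using hg
    obtain ⟨T, hT⟩ := exists_finset_normalClosure S hgR
    -- finitely many letters
    choose Yf hYf using fun z : Coprod N (FreeGroup X) => exists_lettersSubgroup z
    let Y : Finset X := T.biUnion fun i => Yf (S i)
    let m := T.card
    let n := Y.card
    let t : Fin m → I := fun k => (T.equivFin.symm k : I)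
    let e : Fin n → X := fun k => (Y.equivFin.symm k : X)
    have ht : Function.Injective t := fun a b hab =>
      T.equivFin.symm.injective (Subtype.ext hab)
    have he : Function.Injective e := fun a b hab =>
      Y.equivFin.symm.injective (Subtype.ext hab)
    have heY : ∀ x ∈ Y, ∃ k, e k = x := fun x hx =>
      ⟨Y.equivFin ⟨x, hx⟩, by simp [e]⟩
    have hmem : ∀ k : Fin m, S (t k) ∈
        (Coprod.map (MonoidHom.id N) (FreeGroup.map e)).range := fun k => by
      apply lettersSubgroup_le_range Y e heY
      apply lettersSubgroup_mono _ (hYf (S (t k)))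
      exact Finset.subset_biUnion_of_mem (fun i => Yf (S i)) (T.equivFin.symm k).2
    choose S' hS' using fun k => MonoidHom.mem_range.mp (hmem k)
    -- the finite system is nonsingular
    have hns : IsNonsingular S' := by
      unfold IsNonsingular
      let Λ : (Fin n → ℚ) →ₗ[ℚ] (X →₀ ℚ) :=
        (Finsupp.lmapDomain ℚ ℚ e).comp
          (Finsupp.linearEquivFunOnFinite ℚ ℚ (Fin n)).symm.toLinearMap
      apply LinearIndependent.of_comp Λ
      have hcomp : (Λ ∘ fun (i : Fin m) (j : Fin n) =>
          ((Multiplicative.toAdd (expSum N n (S' i)) j : ℤ) : ℚ)) =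
          fun k => Multiplicative.toAdd (expRow N X (S (t k))) := by
        funext k
        rw [← hS' k, expRow_map, expRow_fin]
        rfl
      rw [hcomp]
      exact hS.comp t ht
    obtain ⟨H, _, f, h, hf, hsol⟩ := hN m n S' hns
    let η : X → H := Function.extend e h 1
    let L : Coprod N (FreeGroup X) →* H := Coprod.lift f (FreeGroup.lift η)
    have hL : L.comp (Coprod.map (MonoidHom.id N) (FreeGroup.map e)) =
        Coprod.lift f (FreeGroup.lift h) := by
      apply Coprod.hom_ext
      · ext g
        simp [L]
      · ext k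
        simp [L, η, he.extend_apply]
    have hker : Subgroup.normalClosure (S '' (T : Set I)) ≤ L.ker := by
      apply Subgroup.normalClosure_le_normal
      rintro _ ⟨i, hi, rfl⟩
      have hi' : i = t (T.equivFin ⟨i, hi⟩) := by simp [t]
      rw [hi', SetLike.mem_coe, MonoidHom.mem_ker, ← hS', ← MonoidHom.comp_apply, hL]
      exact hsol _
    have h1 : L (Coprod.inl g) = 1 := hker hT
    have h2 : f g = 1 := by simpa [L] using h1
    rw [← map_one f] at h2
    exact hf h2
  · intro i
    have hlift : Coprod.lift ((QuotientGroup.mk' R).comp Coprod.inl)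
        (FreeGroup.lift fun x => QuotientGroup.mk' R (Coprod.inr (FreeGroup.of x))) =
        QuotientGroup.mk' R := by
      apply Coprod.hom_ext
      · ext g
        simp
      · ext x
        simp
    rw [hlift]
    exact (QuotientGroup.eq_one_iff _).mpr (Subgroup.subset_normalClosure ⟨i, rfl⟩)

end Vale.Agent.H47.Howie
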