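import Mathlib

/-!
# Injectivity of `P' * F → P * F` for an injective homomorphism `P' → P`

We deduce it from the fact that the factors of an amalgamated free product embed.
-/

namespace Vale.Agent.H47.Howie

open Monoid (Coprod PushoutI)

universe u

/-- The two-member family of groups `P` (at `true`) and `C` (at `false`). -/
def famTwo (P C : Type u) : Bool → Type u
  | true => P
  | false => C

instance famTwoGroup (P C : Type u) [Group P] [Group C] : ∀ b, Group (famTwo P C b)
  | true => (inferInstance : Group P)
  | false => (inferInstance : Group C)

/-- The two maps out of the amalgamated subgroup. -/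
def famTwoHom {P' P C : Type u} [Group P'] [Group P] [Group C] (f : P' →* P) (k : P' →* C) :
    ∀ b, P' →* famTwo P C b
  | true => f
  | false => k

theorem coprod_map_injective {P' P : Type u} {F : Type} [Group P'] [Group P] [Group F]
    (f : P' →* P) (hf : Function.Injective f) :
    Function.Injective (Coprod.map f (MonoidHom.id F)) := by
  let φ := famTwoHom (C := Coprod P' F) f Coprod.inl
  have hφ : ∀ b, Function.Injective (φ b) := by
    intro b
    cases b
    · exact Coprod.inl_injective
    · exact hf
  let oT : P →* PushoutI φ := PushoutI.of (φ := φ) true
  let oF : Coprod P' F →* PushoutI φ := PushoutI.of (φ := φ) false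
  let Ψ : Coprod P F →* PushoutI φ := Coprod.lift oT (oF.comp Coprod.inr)
  have hΨ : Ψ.comp (Coprod.map f (MonoidHom.id F)) = oF := by
    apply Coprod.hom_ext
    · ext p
      have h1 : oT (f p) = PushoutI.base φ p := PushoutI.of_apply_eq_base φ true p
      have h2 : oF (Coprod.inl p) = PushoutI.base φ p := PushoutI.of_apply_eq_base φ false p
      simp [Ψ, h1, h2]
    · ext x
      simp [Ψ]
  intro a b hab
  have hinj : Function.Injective oF := PushoutI.of_injective hφ false
  apply hinj
  rw [← hΨ, MonoidHom.comp_apply, MonoidHom.comp_apply, hab]

end Vale.Agent.H47.Howie
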