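import Vale.Agent.H47.Howie.Defs

/-!
# The wreath-product rewriting of a system of equations

Let `π : G →* Q` be a group homomorphism with kernel `N`.  Using a Kaloujnine-Krasner type
embedding of `G` into the unrestricted wreath product `(Q → M) ⋊ Q` (for any group `M` receiving
`N`), a system of equations over `G` whose image over `Q` is solved by `q` is rewritten as a
(large) system of equations over `N`; a solution of the rewritten system over `N` gives a solution
of the original system over `G`.
-/

namespace Vale.Agent.H47.Howie

open Monoid (Coprod)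

section Wreath

variable (Q : Type*) (M : Type*) [Group Q] [Group M]

/-- Right-translation action of `Q` on functions `Q → M`: `(q • f) r = f (r * q)`. -/
def transAut : Q →* MulAut (Q → M) where
  toFun q :=
    { toFun := fun f r => f (r * q)
      invFun := fun f r => f (r * q⁻¹)
      left_inv := fun f => by funext r; simp
      right_inv := fun f => by funext r; simp
      map_mul' := fun f g => rfl }
  map_one' := by ext f r; simp
  map_mul' := fun a b => by ext f r; simp [mul_assoc]

@[simp] lemma transAut_apply (q : Q) (f : Q → M) (r : Q) :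
    transAut Q M q f r = f (r * q) := rfl

@[simp] lemma transAut_symm_apply (q : Q) (f : Q → M) (r : Q) :
    (transAut Q M q).symm f r = f (r * q⁻¹) := rfl

end Wreath

/-- Post-composition with a homomorphism `L : M →* H`, as a homomorphism of wreath products. -/
def wrMap {Q M H : Type*} [Group Q] [Group M] [Group H] (L : M →* H) :
    SemidirectProduct (Q → M) Q (transAut Q M) →* SemidirectProduct (Q → H) Q (transAut Q H) :=
  SemidirectProduct.map (L.compLeft Q) (MonoidHom.id Q) (fun g => by ext f r; rfl)

@[simp] lemma wrMap_left {Q M H : Type*} [Group Q] [Group M] [Group H] (L : M →* H)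
    (x : SemidirectProduct (Q → M) Q (transAut Q M)) (r : Q) :
    (wrMap L x).left r = L (x.left r) := rfl

@[simp] lemma wrMap_right {Q M H : Type*} [Group Q] [Group M] [Group H] (L : M →* H)
    (x : SemidirectProduct (Q → M) Q (transAut Q M)) :
    (wrMap L x).right = x.right := rfl

section KK

variable {G Q : Type*} [Group G] [Group Q] (π : G →* Q)

/-- A representative of the left coset `r * π(G)`, depending only on the coset. -/
noncomputable def cosetRep (r : Q) : Q := (QuotientGroup.mk r : Q ⧸ π.range).out

lemma cosetRep_mul (r : Q) (g : G) : cosetRep π (r * π g) = cosetRep π r := by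
  unfold cosetRep
  congr 1
  rw [QuotientGroup.eq]
  have : (r * π g)⁻¹ * r = (π g)⁻¹ := by group
  rw [this]
  exact inv_mem (MonoidHom.mem_range.mpr ⟨g, rfl⟩)

lemma cosetRep_mem (r : Q) : (cosetRep π r)⁻¹ * r ∈ π.range :=
  QuotientGroup.eq.mp (QuotientGroup.out_eq' (QuotientGroup.mk r : Q ⧸ π.range))

/-- An element `sect r` of `G` with `π (sect r) = (cosetRep r)⁻¹ * r`. -/
noncomputable def sect (r : Q) : G :=
  Classical.choose (MonoidHom.mem_range.mp (cosetRep_mem π r))

lemma map_sect (r : Q) : π (sect π r) = (cosetRep π r)⁻¹ * r :=
  Classical.choose_spec (MonoidHom.mem_range.mp (cosetRep_mem π r))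

lemma map_sect_mul (r : Q) (g : G) : π (sect π (r * π g)) = π (sect π r) * π g := by
  rw [map_sect, map_sect, cosetRep_mul, mul_assoc]

/-- The Kaloujnine-Krasner cocycle, with values in the kernel of `π`. -/
noncomputable def kkCocycle (g : G) (r : Q) : π.ker :=
  ⟨sect π r * g * (sect π (r * π g))⁻¹, by
    rw [MonoidHom.mem_ker, map_mul, map_mul, map_inv, map_sect_mul]; group⟩

lemma kkCocycle_mul (g h : G) (r : Q) :
    kkCocycle π (g * h) r = kkCocycle π g r * kkCocycle π h (r * π g) := by
  apply Subtype.ext
  simp [kkCocycle, mul_assoc]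

lemma kkCocycle_one (r : Q) : kkCocycle π 1 r = 1 := by
  apply Subtype.ext
  simp [kkCocycle]

/-- The Kaloujnine-Krasner homomorphism of `G` into the wreath product `(Q → M) ⋊ Q`, for a
group `M` receiving the kernel of `π`. -/
noncomputable def kkHom {M : Type*} [Group M] (j : π.ker →* M) :
    G →* SemidirectProduct (Q → M) Q (transAut Q M) where
  toFun g := ⟨fun r => j (kkCocycle π g r), π g⟩
  map_one' := by
    ext r
    · simp [kkCocycle_one]
    · simp
  map_mul' g h := by
    ext r
    · simp [kkCocycle_mul]
    · simp

@[simp] lemma kkHom_left {M : Type*} [Group M] (j : π.ker →* M) (g : G) (r : Q) :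
    (kkHom π j g).left r = j (kkCocycle π g r) := rfl

@[simp] lemma kkHom_right {M : Type*} [Group M] (j : π.ker →* M) (g : G) :
    (kkHom π j g).right = π g := rfl

lemma kkHom_injective {M : Type*} [Group M] (j : π.ker →* M) (hj : Function.Injective j) :
    Function.Injective (kkHom π j) := by
  rw [injective_iff_map_eq_one]
  intro g hg
  have h1 : π g = 1 := by
    have := congrArg SemidirectProduct.right hg
    simpa using this
  have h2 : j (kkCocycle π g 1) = 1 := by
    have := congrArg (fun x : SemidirectProduct (Q → M) Q (transAut Q M) => x.left 1) hg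
    simpa using this
  have h3 : kkCocycle π g 1 = 1 := by
    rw [← map_one j] at h2
    exact hj h2
  have h4 : sect π 1 * g * (sect π (1 * π g))⁻¹ = 1 := by
    have := congrArg Subtype.val h3
    simpa [kkCocycle] using this
  rw [h1, mul_one] at h4
  have h5 : sect π 1 * g = sect π 1 := by
    have := congrArg (fun x => x * sect π 1) h4
    simpa using this
  simpa using h5

variable {J : Type*} (q : J → Q)

/-- The homomorphism `G * F(J) → (Q → M) ⋊ Q` extending the Kaloujnine-Krasner homomorphism and
sending the unknown `x` to `(r ↦ η (x, r), q x)`. -/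
noncomputable def thetaHom {M : Type*} [Group M] (j : π.ker →* M) (η : J × Q → M) :
    Coprod G (FreeGroup J) →* SemidirectProduct (Q → M) Q (transAut Q M) :=
  Coprod.lift (kkHom π j) (FreeGroup.lift fun x => ⟨fun r => η (x, r), q x⟩)

lemma thetaHom_right {M : Type*} [Group M] (j : π.ker →* M) (η : J × Q → M)
    (γ : Coprod G (FreeGroup J)) :
    (thetaHom π q j η γ).right = Coprod.lift π (FreeGroup.lift q) γ := by
  have : SemidirectProduct.rightHom.comp (thetaHom π q j η) = Coprod.lift π (FreeGroup.lift q) := by
    apply Coprod.hom_ext
    · ext g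
      simp [thetaHom]
    · ext x
      simp [thetaHom]
  exact DFunLike.congr_fun this γ

/-- The rewritten system over the kernel of `π`: unknowns indexed by `J × Q`, one equation for
each pair `(i, r)`. -/
noncomputable def bigSystem {I : Type*} (w : I → Coprod G (FreeGroup J)) (p : I × Q) :
    Coprod π.ker (FreeGroup (J × Q)) :=
  (thetaHom π q Coprod.inl (fun x => Coprod.inr (FreeGroup.of x)) (w p.1)).left p.2

lemma wrMap_comp_thetaHom {M : Type*} [Group M] (j : π.ker →* M) (η : J × Q → M) :
    (wrMap (Coprod.lift j (FreeGroup.lift η))).comp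
      (thetaHom π q Coprod.inl (fun x => Coprod.inr (FreeGroup.of x))) = thetaHom π q j η := by
  apply Coprod.hom_ext
  · ext g r
    · simp [thetaHom]
    · simp [thetaHom]
  · ext x r
    · simp [thetaHom]
    · simp [thetaHom]

/-- A solution of the rewritten system over the kernel of `π` yields a solution of the original
system over `G`, in the wreath product `(Q → H) ⋊ Q`. -/
theorem solution_of_bigSystem {I : Type*} (w : I → Coprod G (FreeGroup J))
    (hq : ∀ i, Coprod.lift π (FreeGroup.lift q) (w i) = 1)
    {H : Type*} [Group H] (ι : π.ker →* H) (hι : Function.Injective ι) (η : J × Q → H)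
    (hη : ∀ p, Coprod.lift ι (FreeGroup.lift η) (bigSystem π q w p) = 1) :
    Function.Injective (kkHom π ι) ∧
      ∀ i, Coprod.lift (kkHom π ι)
        (FreeGroup.lift fun x => (⟨fun r => η (x, r), q x⟩ :
          SemidirectProduct (Q → H) Q (transAut Q H))) (w i) = 1 := by
  refine ⟨kkHom_injective π ι hι, fun i => ?_⟩
  change thetaHom π q ι η (w i) = 1
  rw [← wrMap_comp_thetaHom]
  ext r
  · simpa [bigSystem] using hη (i, r)
  · simp [thetaHom_right, hq]

end KK

end Vale.Agent.H47.Howie
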