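import Mathlib

/-!
# Systems of equations over groups: basic definitions

A finite system of `m` equations in `n` unknowns over a group `G` is a family
`w : Fin m → Monoid.Coprod G (FreeGroup (Fin n))` of elements of the free product `G * F_n`.
-/

namespace Vale.Agent.H47.Howie

universe u

/-- The exponent-sum homomorphism `G * F_n → ℤ^n` (written multiplicatively): it kills `G`
and sends the `j`-th free generator to the `j`-th standard basis vector. -/
noncomputable def expSum (G : Type u) [Group G] (n : ℕ) :
    Monoid.Coprod G (FreeGroup (Fin n)) →* Multiplicative (Fin n → ℤ) :=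
  Monoid.Coprod.lift 1 (FreeGroup.lift fun j => Multiplicative.ofAdd (Pi.single j (1 : ℤ)))

/-- A finite system `w_1, ..., w_m ∈ G * F_n` is nonsingular if the rows of its exponent-sum
matrix are linearly independent over `ℚ`, i.e. the matrix has rank `m`. -/
def IsNonsingular {G : Type u} [Group G] {m n : ℕ}
    (w : Fin m → Monoid.Coprod G (FreeGroup (Fin n))) : Prop :=
  LinearIndependent ℚ fun i : Fin m => fun j : Fin n =>
    ((Multiplicative.toAdd (expSum G n (w i)) j : ℤ) : ℚ)

/-- A finite system `w_1, ..., w_m ∈ G * F_n` is solvable over `G` if there are a group `H`,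
an injective homomorphism `f : G → H` and elements `h_1, ..., h_n ∈ H` at which every `w_i`
evaluates to `1`. -/
def IsSolvableOver {G : Type u} [Group G] {m n : ℕ}
    (w : Fin m → Monoid.Coprod G (FreeGroup (Fin n))) : Prop :=
  ∃ (H : Type u) (_ : Group H) (f : G →* H) (h : Fin n → H),
    Function.Injective f ∧ ∀ i, Monoid.Coprod.lift f (FreeGroup.lift h) (w i) = 1

/-- Howie's conjecture for the group `G`: every nonsingular finite system of equations over `G`
is solvable over `G`. -/
def HowieProperty (G : Type u) [Group G] : Prop :=
  ∀ (m n : ℕ) (w : Fin m → Monoid.Coprod G (FreeGroup (Fin n))),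
    IsNonsingular w → IsSolvableOver w

end Vale.Agent.H47.Howie
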