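import Vale.Agent.H47.Howie.Sect

/-!
# Sections adapted to an element, and indicable data

For a homomorphism `πZ : P →* ℤ`, an element `t` of level `1` and an element `p₀` of nonzero
level `d`, we build a section of `P → ℚ` (with values in `ℤ`) whose Kaloujnine-Krasner cocycle
is trivial on `p₀`.  We also extract such data from local indicability of a quotient.
-/

namespace Vale.Agent.H47.Howie

open Monoid (Coprod)

/-- The inclusion of `ℤ` into `ℚ`, written multiplicatively. -/
def castZQ : Multiplicative ℤ →* Multiplicative ℚ :=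
  AddMonoidHom.toMultiplicative (Int.castAddHom ℚ)

lemma toAdd_castZQ (z : Multiplicative ℤ) :
    Multiplicative.toAdd (castZQ z) = ((Multiplicative.toAdd z : ℤ) : ℚ) := rfl

section ZSect

variable {P : Type*} [Group P] (πZ : P →* Multiplicative ℤ) (t p₀ : P) (d : ℤ)

/-- The section `r ↦ t ^ (⌊r⌋ % d) * p₀ ^ (⌊r⌋ / d)`. -/
noncomputable def zsect (r : Multiplicative ℚ) : P :=
  t ^ (⌊Multiplicative.toAdd r⌋ % d) * p₀ ^ (⌊Multiplicative.toAdd r⌋ / d)

variable {πZ t p₀ d}

lemma map_zsect (ht : πZ t = Multiplicative.ofAdd 1) (hp₀ : πZ p₀ = Multiplicative.ofAdd d)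
    (r : Multiplicative ℚ) :
    πZ (zsect t p₀ d r) = Multiplicative.ofAdd ⌊Multiplicative.toAdd r⌋ := by
  unfold zsect
  rw [map_mul, map_zpow, map_zpow, ht, hp₀]
  apply Multiplicative.toAdd.injective
  simp only [toAdd_mul, toAdd_zpow, toAdd_ofAdd, smul_eq_mul, mul_one]
  exact Int.emod_add_ediv_mul _ _

lemma isSect_zsect (ht : πZ t = Multiplicative.ofAdd 1) (hp₀ : πZ p₀ = Multiplicative.ofAdd d) :
    IsSect (castZQ.comp πZ) (zsect t p₀ d) := by
  intro r g
  simp only [MonoidHom.comp_apply]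
  rw [map_zsect ht hp₀, map_zsect ht hp₀, ← map_mul]
  congr 1
  apply Multiplicative.toAdd.injective
  change ⌊Multiplicative.toAdd r + ((Multiplicative.toAdd (πZ g) : ℤ) : ℚ)⌋ =
    ⌊Multiplicative.toAdd r⌋ + Multiplicative.toAdd (πZ g)
  exact Int.floor_add_intCast _ _

lemma zsect_one : zsect t p₀ d 1 = 1 := by
  simp [zsect]

lemma zsect_mul (hd : d ≠ 0) (hp₀ : πZ p₀ = Multiplicative.ofAdd d) (r : Multiplicative ℚ) :
    zsect t p₀ d (r * castZQ (πZ p₀)) = zsect t p₀ d r * p₀ := by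
  unfold zsect
  have h1 : ⌊Multiplicative.toAdd (r * castZQ (πZ p₀))⌋ = ⌊Multiplicative.toAdd r⌋ + d := by
    rw [toAdd_mul, toAdd_castZQ, hp₀, toAdd_ofAdd, Int.floor_add_intCast]
  rw [h1, Int.add_emod_right, mul_assoc]
  congr 1
  have h2 : (⌊Multiplicative.toAdd r⌋ + d) / d = ⌊Multiplicative.toAdd r⌋ / d + 1 := by
    have := Int.add_mul_ediv_right ⌊Multiplicative.toAdd r⌋ 1 hd
    rwa [one_mul] at this
  rw [h2, zpow_add_one]

lemma kkc_zsect (hd : d ≠ 0) (ht : πZ t = Multiplicative.ofAdd 1)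
    (hp₀ : πZ p₀ = Multiplicative.ofAdd d) (r : Multiplicative ℚ) :
    kkc (isSect_zsect ht hp₀) p₀ r = 1 := by
  apply Subtype.ext
  rw [kkc_val]
  simp only [MonoidHom.comp_apply]
  rw [zsect_mul hd hp₀]
  simp

end ZSect

section IndicableData

variable {G : Type*} [Group G] (N : Subgroup G)

/-- `G` is locally indicable relative to the subgroup `N`: every finitely generated subgroup
`H` of `G` not contained in `N` has a surjective homomorphism onto `ℤ` that is trivial on
`H ∩ N`.  For `N` normal this says that `G ⧸ N` is locally indicable. -/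
def RelIndicable : Prop :=
  ∀ H : Subgroup G, H.FG → ¬ H ≤ N →
    ∃ θ : H →* Multiplicative ℤ, Function.Surjective θ ∧ ∀ h : H, (h : G) ∈ N → θ h = 1

/-- Local indicability of the quotient `G ⧸ N` gives relative local indicability. -/
theorem relIndicable_of_quotient [N.Normal]
    (hLI : ∀ H : Subgroup (G ⧸ N), H.FG → H ≠ ⊥ →
      ∃ θ : H →* Multiplicative ℤ, Function.Surjective θ) : RelIndicable N := by
  intro H hFG hHN
  let f : G →* G ⧸ N := QuotientGroup.mk' N
  have hne : H.map f ≠ ⊥ := by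
    intro h
    apply hHN
    intro x hx
    have h1 : f x ∈ H.map f := Subgroup.mem_map_of_mem f hx
    rw [h, Subgroup.mem_bot] at h1
    exact (QuotientGroup.eq_one_iff _).mp h1
  have hFG' : (H.map f).FG := by
    obtain ⟨T, hT⟩ := hFG
    refine (Subgroup.fg_iff _).mpr ⟨f '' (T : Set G), ?_, T.finite_toSet.image f⟩
    rw [← MonoidHom.map_closure, hT]
  obtain ⟨θ, hθ⟩ := hLI (H.map f) hFG' hne
  refine ⟨θ.comp (f.subgroupMap H), hθ.comp (f.subgroupMap_surjective H), fun h hh => ?_⟩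
  have h1 : f.subgroupMap H h = 1 := by
    apply Subtype.ext
    exact (QuotientGroup.eq_one_iff _).mpr hh
  rw [MonoidHom.comp_apply, h1, map_one]

end IndicableData

section IndicableHom

variable {G : Type*} [Group G]

/-- Given a set `S` of elements of `P`, a homomorphism `ρ : P →* G` and a surjective
homomorphism `θ` from the subgroup of `G` generated by `ρ '' S` onto `ℤ`, there are a subgroup
`P'` of `P` containing `S`, a homomorphism `πZ : P' →* ℤ` killing the kernel of `ρ`, an element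
`t` of level `1` and an element `p₀` of `S` of nonzero level. -/
theorem exists_indicable_data {P : Type*} [Group P] (ρ : P →* G) (S : Set P)
    (θ : Subgroup.closure (ρ '' S) →* Multiplicative ℤ) (hθ : Function.Surjective θ) :
    ∃ (P' : Subgroup P) (πZ : P' →* Multiplicative ℤ) (t p₀ : P') (d : ℤ),
      S ⊆ P' ∧ (∀ p : P', ρ p = 1 → πZ p = 1) ∧ πZ t = Multiplicative.ofAdd 1 ∧
      πZ p₀ = Multiplicative.ofAdd d ∧ d ≠ 0 ∧ (p₀ : P) ∈ S := by
  classical
  let P' : Subgroup P := (Subgroup.closure (ρ '' S)).comap ρ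
  have hSP : S ⊆ P' := fun s hs => Subgroup.subset_closure ⟨s, hs, rfl⟩
  let fP : P' →* Subgroup.closure (ρ '' S) := ρ.subgroupComap (Subgroup.closure (ρ '' S))
  let πZ : P' →* Multiplicative ℤ := θ.comp fP
  have hgood : ∀ p : P', ρ p = 1 → πZ p = 1 := by
    intro p hp
    have h1 : fP p = 1 := Subtype.ext hp
    rw [MonoidHom.comp_apply, h1, map_one]
  -- `fP` is surjective
  have hsurj : Function.Surjective fP := by
    rintro ⟨y, hy⟩
    have h1 : y ∈ (Subgroup.closure S).map ρ := by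
      rw [MonoidHom.map_closure]
      exact hy
    obtain ⟨x, -, rfl⟩ := Subgroup.mem_map.mp h1
    exact ⟨⟨x, hy⟩, rfl⟩
  obtain ⟨y, hy⟩ := hθ (Multiplicative.ofAdd 1)
  obtain ⟨t, rfl⟩ := hsurj y
  -- some element of `S` has nonzero level
  have hex : ∃ s, ∃ hs : s ∈ S, θ ⟨ρ s, Subgroup.subset_closure ⟨s, hs, rfl⟩⟩ ≠ 1 := by
    by_contra hcon
    push Not at hcon
    have hle : Subgroup.closure (ρ '' S) ≤ θ.ker.map (Subgroup.closure (ρ '' S)).subtype := by
      apply (Subgroup.closure_le _).mpr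
      rintro _ ⟨s, hs, rfl⟩
      exact ⟨⟨ρ s, Subgroup.subset_closure ⟨s, hs, rfl⟩⟩, hcon s hs, rfl⟩
    obtain ⟨z, hz, hzy⟩ := hle (fP t).2
    have h1 : z = fP t := Subtype.ext hzy
    rw [h1, SetLike.mem_coe, MonoidHom.mem_ker, hy] at hz
    have h2 := congrArg Multiplicative.toAdd hz
    simp at h2
  obtain ⟨s, hs, hsθ⟩ := hex
  refine ⟨P', πZ, t, ⟨s, hSP hs⟩, Multiplicative.toAdd (πZ ⟨s, hSP hs⟩), hSP, hgood, hy, rfl, ?_, hs⟩
  intro h0
  apply hsθ
  have h1 : πZ ⟨s, hSP hs⟩ = 1 := by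
    apply Multiplicative.toAdd.injective
    rw [h0]
    rfl
  exact h1

end IndicableHom

section Division

/-- A nontrivial homomorphism to `ℤ` can be divided by a generator of its image, giving a
surjective homomorphism to `ℤ` with the same kernel. -/
lemma exists_surjective_of_ne_one {H : Type*} [Group H] (θ₀ : H →* Multiplicative ℤ)
    (h : θ₀ ≠ 1) :
    ∃ θ : H →* Multiplicative ℤ, Function.Surjective θ ∧ ∀ x, θ₀ x = 1 → θ x = 1 := by
  let θa : Additive H →+ ℤ := MonoidHom.toAdditiveLeft θ₀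
  obtain ⟨a, ha⟩ := Int.subgroup_cyclic θa.range
  have hdvd : ∀ x : H, a ∣ Multiplicative.toAdd (θ₀ x) := by
    intro x
    have h1 : θa (Additive.ofMul x) ∈ θa.range := ⟨_, rfl⟩
    rw [ha, AddSubgroup.mem_closure_singleton] at h1
    obtain ⟨n, hn⟩ := h1
    refine ⟨n, ?_⟩
    have h2 : θa (Additive.ofMul x) = Multiplicative.toAdd (θ₀ x) := rfl
    rw [← h2, ← hn, smul_eq_mul, mul_comm]
  have ha0 : a ≠ 0 := by
    rintro rfl
    apply h
    ext x
    have h1 := hdvd x
    rw [zero_dvd_iff] at h1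
    exact h1
  obtain ⟨x₀, hx₀⟩ : ∃ x₀ : H, Multiplicative.toAdd (θ₀ x₀) = a := by
    have h1 : a ∈ θa.range := by
      rw [ha]
      exact AddSubgroup.subset_closure rfl
    obtain ⟨y, hy⟩ := h1
    exact ⟨Additive.toMul y, hy⟩
  let θ : H →* Multiplicative ℤ :=
    { toFun := fun x => Multiplicative.ofAdd (Multiplicative.toAdd (θ₀ x) / a)
      map_one' := by simp
      map_mul' := fun x y => by
        rw [map_mul, toAdd_mul, Int.add_ediv_of_dvd_left (hdvd x)]
        rfl }
  have hθ : ∀ x, θ x = Multiplicative.ofAdd (Multiplicative.toAdd (θ₀ x) / a) := fun x => rfl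
  refine ⟨θ, ?_, ?_⟩
  · intro z
    refine ⟨x₀ ^ (Multiplicative.toAdd z), ?_⟩
    rw [map_zpow, hθ, hx₀, Int.ediv_self ha0]
    apply Multiplicative.toAdd.injective
    simp
  · intro x hx
    rw [hθ, hx]
    simp

end Division

end Vale.Agent.H47.Howie
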