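import Vale.Agent.H47.Howie.Compact

/-!
# Levels for the unknowns

For a homomorphism `π : G →* (ℚ, +)` and a system with linearly independent exponent-sum rows,
the unknowns can be given rational levels at which every equation of the system has level zero.
-/

namespace Vale.Agent.H47.Howie

open Monoid (Coprod)

section Levels

variable {G : Type*} [Group G] {X : Type*} (π : G →* Multiplicative ℚ)

lemma lift_eq_mul_row (φ : (X →₀ ℚ) →ₗ[ℚ] ℚ) (γ : Coprod G (FreeGroup X)) :
    Coprod.lift π (FreeGroup.lift fun x => Multiplicative.ofAdd (φ (Finsupp.single x 1))) γ =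
      Coprod.lift π 1 γ * Multiplicative.ofAdd (φ (Multiplicative.toAdd (expRow G X γ))) := by
  have h : Coprod.lift π
      (FreeGroup.lift fun x => Multiplicative.ofAdd (φ (Finsupp.single x 1))) =
      (Coprod.lift π 1) *
        ((AddMonoidHom.toMultiplicative φ.toAddMonoidHom).comp (expRow G X)) := by
    apply Coprod.hom_ext
    · ext g
      simp [expRow]
    · ext x
      simp [expRow]
  exact DFunLike.congr_fun h γ

theorem exists_levels {I : Type*} (w : I → Coprod G (FreeGroup X))
    (hw : LinearIndependent ℚ fun i => Multiplicative.toAdd (expRow G X (w i))) :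
    ∃ q : X → Multiplicative ℚ, ∀ i, Coprod.lift π (FreeGroup.lift q) (w i) = 1 := by
  obtain ⟨L, hL⟩ := LinearMap.exists_leftInverse_of_injective
    (Finsupp.linearCombination ℚ fun i => Multiplicative.toAdd (expRow G X (w i)))
    (LinearMap.ker_eq_bot.mpr hw)
  let c : I → ℚ := fun i => - Multiplicative.toAdd (Coprod.lift π 1 (w i))
  let φ : (X →₀ ℚ) →ₗ[ℚ] ℚ := (Finsupp.linearCombination ℚ c) ∘ₗ L
  refine ⟨fun x => Multiplicative.ofAdd (φ (Finsupp.single x 1)), fun i => ?_⟩
  rw [lift_eq_mul_row]
  have h1 : L (Multiplicative.toAdd (expRow G X (w i))) = Finsupp.single i 1 := by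
    have := DFunLike.congr_fun hL (Finsupp.single i 1)
    simpa [Finsupp.linearCombination_single] using this
  have h2 : φ (Multiplicative.toAdd (expRow G X (w i))) = c i := by
    simp [φ, h1, Finsupp.linearCombination_single]
  rw [h2]
  apply Multiplicative.toAdd.injective
  simp [c]

end Levels

end Vale.Agent.H47.Howie
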