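import Vale.Agent.H47.Howie.Regular

/-!
# Howie's property passes to extensions by torsion-free abelian groups

If `π : G →* (V, +)` is a homomorphism to the additive group of a `ℚ`-vector space and every
nonsingular finite system over `ker π` is solvable, then every nonsingular finite system over `G`
is solvable.
-/

namespace Vale.Agent.H47.Howie

open Monoid (Coprod)

universe u

section Projected

variable {G : Type*} [Group G] {V : Type*} [AddCommGroup V] [Module ℚ V]
  (π : G →* Multiplicative V) {m n : ℕ}

/-- The additive map `x ↦ ∑ j, x j • v j` from `ℤ^n` to `V`. -/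
def zsum (v : Fin n → V) : (Fin n → ℤ) →+ V where
  toFun x := ∑ j, x j • v j
  map_zero' := by simp
  map_add' x y := by simp [add_smul, Finset.sum_add_distrib]

omit [Module ℚ V] in
lemma lift_eq_mul (v : Fin n → V) (γ : Coprod G (FreeGroup (Fin n))) :
    Coprod.lift π (FreeGroup.lift fun j => Multiplicative.ofAdd (v j)) γ =
      Coprod.lift π 1 γ *
        Multiplicative.ofAdd (zsum v (Multiplicative.toAdd (expSum G n γ))) := by
  have h : Coprod.lift π (FreeGroup.lift fun j => Multiplicative.ofAdd (v j)) =
      (Coprod.lift π 1) * ((AddMonoidHom.toMultiplicative (zsum v)).comp (expSum G n)) := by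
    apply Coprod.hom_ext
    · ext g
      simp [expSum]
    · ext j
      simp [expSum, zsum, Pi.single_apply]
  exact DFunLike.congr_fun h γ

/-- The image over `V` of a nonsingular system has a solution in `V`. -/
lemma exists_projected_solution (w : Fin m → Coprod G (FreeGroup (Fin n)))
    (hw : IsNonsingular w) :
    ∃ q : Fin n → Multiplicative V, ∀ i, Coprod.lift π (FreeGroup.lift q) (w i) = 1 := by
  classical
  let A : Matrix (Fin m) (Fin n) ℚ :=
    Matrix.of fun i j => ((Multiplicative.toAdd (expSum G n (w i)) j : ℤ) : ℚ)
  obtain ⟨B, hB⟩ := exists_rightInverse_of_linearIndependent A hw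
  let c : Fin m → V := fun i => Multiplicative.toAdd (Coprod.lift π 1 (w i))
  let v : Fin n → V := fun j => - ∑ k, B j k • c k
  refine ⟨fun j => Multiplicative.ofAdd (v j), fun i => ?_⟩
  rw [lift_eq_mul]
  apply Multiplicative.toAdd.injective
  change c i + zsum v (Multiplicative.toAdd (expSum G n (w i))) = 0
  have h1 : zsum v (Multiplicative.toAdd (expSum G n (w i))) = ∑ j, A i j • v j := by
    simp [zsum, A, Int.cast_smul_eq_zsmul]
  have h2 : ∑ j, A i j • v j = - ∑ k, (A * B) i k • c k := by
    simp only [v, smul_neg, Finset.sum_neg_distrib, Finset.smul_sum, smul_smul, Matrix.mul_apply,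
      Finset.sum_smul]
    rw [Finset.sum_comm]
  have h3 : ∑ k, (A * B) i k • c k = c i := by
    rw [hB]
    simp [Matrix.one_apply, ite_smul]
  rw [h1, h2, h3, add_neg_cancel]

end Projected

/-- **Main theorem.** Let `π : G →* (V, +)` be a homomorphism to the additive group of a
`ℚ`-vector space. If every nonsingular finite system of equations over `ker π` is solvable over
`ker π`, then every nonsingular finite system of equations over `G` is solvable over `G`. -/
theorem howieProperty_of_ker {G : Type u} [Group G] {V : Type u} [AddCommGroup V] [Module ℚ V]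
    (π : G →* Multiplicative V) (hN : HowieProperty π.ker) : HowieProperty G := by
  intro m n w hw
  obtain ⟨q, hq⟩ := exists_projected_solution π w hw
  have hrows : LinearIndependent ℚ (fun p : Fin m × Multiplicative V =>
      Multiplicative.toAdd (expRow π.ker (Fin n × Multiplicative V) (bigSystem π q w p))) := by
    have h1 : LinearIndependent ℚ
        fun i => fstRow (Fin n) (Multiplicative V) (rowAt π q (w i) 1) := by
      simp only [fstRow_rowAt]
      have h0 := hw.map' (Finsupp.linearEquivFunOnFinite ℚ ℚ (Fin n)).symm.toLinearMap
        (LinearMap.ker_eq_bot.mpr (LinearEquiv.injective _))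
      have hfun : (fun i => Multiplicative.toAdd (expRow G (Fin n) (w i))) =
          ((Finsupp.linearEquivFunOnFinite ℚ ℚ (Fin n)).symm.toLinearMap ∘
            fun i : Fin m => fun j : Fin n =>
              ((Multiplicative.toAdd (expSum G n (w i)) j : ℤ) : ℚ)) := by
        funext i
        rw [expRow_fin]
        rfl
      rw [hfun]
      exact h0
    have h2 := linearIndependent_shiftRow (fun i => rowAt π q (w i) 1) h1
    have h3 : (fun p : Fin m × Multiplicative V =>
        Multiplicative.toAdd (expRow π.ker (Fin n × Multiplicative V) (bigSystem π q w p))) =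
        fun p => shiftRow p.2 (rowAt π q (w p.1) 1) := by
      funext p
      rw [expRow_bigSystem, rowAt_eq_shiftRow]
    rw [h3]
    exact h2
  obtain ⟨H, _, ι, η, hι, hη⟩ := solvable_of_linearIndependent hN (bigSystem π q w) hrows
  have hsol := solution_of_bigSystem π q w hq ι hι η hη
  exact ⟨_, inferInstance, kkHom π ι, _, hsol.1, hsol.2⟩

end Vale.Agent.H47.Howie
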