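import Vale.Agent.H47.Howie.Core
import Vale.Agent.H47.Howie.Compact

/-!
# Exponent-sum rows of the rewritten system

We compute the exponent-sum rows of the rewritten system `bigSystem` (they are the translates of
the Fox-derivative rows) and show that they are linearly independent over `ℚ` when the group
algebra `ℚ[Q]` is a commutative domain and the original system is nonsingular.
-/

namespace Vale.Agent.H47.Howie

open Monoid (Coprod)

section LinAlg

/-- A rational matrix with linearly independent rows has a right inverse. -/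
lemma exists_rightInverse_of_linearIndependent {m n : ℕ} (A : Matrix (Fin m) (Fin n) ℚ)
    (hA : LinearIndependent ℚ fun i : Fin m => fun j : Fin n => A i j) :
    ∃ B : Matrix (Fin n) (Fin m) ℚ, A * B = 1 := by
  have hinj : Function.Injective A.vecMul := Matrix.vecMul_injective_iff.mpr hA
  obtain ⟨g, hg⟩ := LinearMap.exists_leftInverse_of_injective A.vecMulLinear
    (LinearMap.ker_eq_bot.mpr hinj)
  refine ⟨Matrix.transpose (LinearMap.toMatrix' g), ?_⟩
  rw [Matrix.ext_iff_vecMul]
  intro v
  rw [← Matrix.vecMul_vecMul, Matrix.vecMul_transpose, LinearMap.toMatrix'_mulVec,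
    Matrix.vecMul_one]
  exact DFunLike.congr_fun hg v

end LinAlg

section Induction

variable {G J : Type*} [Group G]

/-- Induction principle for `G * F(J)`: a property that holds on `G`, on the free generators,
and is closed under products and inverses holds everywhere. -/
lemma coprod_free_induction {motive : Coprod G (FreeGroup J) → Prop}
    (γ : Coprod G (FreeGroup J))
    (inl : ∀ g, motive (Coprod.inl g))
    (of : ∀ x, motive (Coprod.inr (FreeGroup.of x)))
    (mul : ∀ a b, motive a → motive b → motive (a * b))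
    (inv : ∀ a, motive a → motive a⁻¹) : motive γ := by
  induction γ using Coprod.induction_on with
  | inl g => exact inl g
  | inr x =>
    induction x using FreeGroup.induction_on with
    | C1 => simpa using inl 1
    | of x => exact of x
    | inv_of x ih => simpa using inv _ ih
    | mul x y ihx ihy => simpa using mul _ _ ihx ihy
  | mul x y ihx ihy => exact mul _ _ ihx ihy

end Induction

section Rows

variable {G Q : Type*} [Group G] [Group Q] (π : G →* Q) {J : Type*} (q : J → Q)

/-- Translation of finitely supported functions on `J × Q` in the second variable. -/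
noncomputable def shiftRow (r : Q) : (J × Q →₀ ℚ) →ₗ[ℚ] (J × Q →₀ ℚ) :=
  Finsupp.lmapDomain ℚ ℚ (fun p : J × Q => (p.1, r * p.2))

lemma shiftRow_apply (r : Q) (d : J × Q →₀ ℚ) :
    shiftRow r d = Finsupp.mapDomain (fun p : J × Q => (p.1, r * p.2)) d := rfl

lemma shiftRow_mul (r s : Q) (d : J × Q →₀ ℚ) :
    shiftRow (r * s) d = shiftRow r (shiftRow s d) := by
  simp only [shiftRow_apply, ← Finsupp.mapDomain_comp]
  congr 1
  funext p
  simp [mul_assoc]

/-- The exponent-sum row of the `(·, r)`-component of the universal wreath-product image. -/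
noncomputable def rowAt (γ : Coprod G (FreeGroup J)) (r : Q) : J × Q →₀ ℚ :=
  Multiplicative.toAdd (expRow π.ker (J × Q)
    ((thetaHom π q Coprod.inl (fun x => Coprod.inr (FreeGroup.of x)) γ).left r))

lemma rowAt_mul (a b : Coprod G (FreeGroup J)) (r : Q) :
    rowAt π q (a * b) r = rowAt π q a r +
      rowAt π q b (r * Coprod.lift π (FreeGroup.lift q) a) := by
  simp [rowAt, thetaHom_right]

lemma rowAt_inv (a : Coprod G (FreeGroup J)) (r : Q) :
    rowAt π q a⁻¹ r = - rowAt π q a (r * (Coprod.lift π (FreeGroup.lift q) a)⁻¹) := by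
  simp [rowAt, thetaHom_right]

lemma rowAt_inl (g : G) (r : Q) : rowAt π q (Coprod.inl g) r = 0 := by
  simp [rowAt, thetaHom, expRow]

lemma rowAt_of (x : J) (r : Q) :
    rowAt π q (Coprod.inr (FreeGroup.of x)) r = Finsupp.single (x, r) 1 := by
  simp [rowAt, thetaHom, expRow]

/-- The rows of the rewritten system are translates of the rows at `1`. -/
lemma rowAt_eq_shiftRow (γ : Coprod G (FreeGroup J)) (r : Q) :
    rowAt π q γ r = shiftRow r (rowAt π q γ 1) := by
  induction γ using coprod_free_induction generalizing r with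
  | inl g => simp [rowAt_inl]
  | of x => simp [rowAt_of, shiftRow_apply, Finsupp.mapDomain_single]
  | mul a b iha ihb =>
    rw [rowAt_mul, rowAt_mul, iha r, ihb (r * _), ihb (1 * _), one_mul, map_add, shiftRow_mul]
  | inv a iha =>
    rw [rowAt_inv, rowAt_inv, iha (r * _), iha (1 * _), one_mul, map_neg, shiftRow_mul]

/-- Forgetting the `Q`-coordinate of the unknowns, as a linear map. -/
noncomputable def fstRow (J Q : Type*) : (J × Q →₀ ℚ) →ₗ[ℚ] (J →₀ ℚ) :=
  Finsupp.lmapDomain ℚ ℚ Prod.fst

omit [Group Q] in
lemma fstRow_single (x : J) (r : Q) (c : ℚ) :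
    fstRow J Q (Finsupp.single (x, r) c) = Finsupp.single x c := by
  simp [fstRow, Finsupp.mapDomain_single]

/-- Forgetting the `Q`-coordinate of the unknowns recovers the exponent-sum row of `γ`. -/
lemma fstRow_rowAt (γ : Coprod G (FreeGroup J)) (r : Q) :
    fstRow J Q (rowAt π q γ r) = Multiplicative.toAdd (expRow G J γ) := by
  induction γ using coprod_free_induction generalizing r with
  | inl g => simp [rowAt_inl, expRow]
  | of x => simp [rowAt_of, expRow, fstRow_single]
  | mul a b iha ihb =>
    rw [rowAt_mul, map_add, iha, ihb, map_mul, toAdd_mul]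
  | inv a iha =>
    rw [rowAt_inv, map_neg, iha, map_inv, toAdd_inv]

lemma expRow_bigSystem {I : Type*} (w : I → Coprod G (FreeGroup J)) (p : I × Q) :
    Multiplicative.toAdd (expRow π.ker (J × Q) (bigSystem π q w p)) = rowAt π q (w p.1) p.2 :=
  rfl

end Rows

section Regular

variable {Q : Type*} [CommGroup Q] [NoZeroDivisors (MonoidAlgebra ℚ Q)] {m n : ℕ}

/-- Conversion of a finitely supported function on `Fin n × Q` into a vector of `n` elements
of the group algebra `ℚ[Q]`. -/
noncomputable def toAlgRow (Q : Type*) [CommGroup Q] (n : ℕ) :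
    (Fin n × Q →₀ ℚ) →ₗ[ℚ] (Fin n → MonoidAlgebra ℚ Q) :=
  LinearMap.pi fun j =>
    (MonoidAlgebra.coeffLinearEquiv ℚ).symm.toLinearMap ∘ₗ
      (Finsupp.lapply j : (Fin n →₀ Q →₀ ℚ) →ₗ[ℚ] (Q →₀ ℚ)) ∘ₗ
        (Finsupp.curryLinearEquiv ℚ).toLinearMap

omit [NoZeroDivisors (MonoidAlgebra ℚ Q)] in
lemma toAlgRow_single (j : Fin n) (s : Q) (c : ℚ) :
    toAlgRow Q n (Finsupp.single (j, s) c) = Pi.single j (MonoidAlgebra.single s c) := by
  funext k
  by_cases hk : j = k
  · subst hk
    simp [toAlgRow]
  · simp [toAlgRow, hk]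

omit [NoZeroDivisors (MonoidAlgebra ℚ Q)] in
lemma toAlgRow_shiftRow (r : Q) (d : Fin n × Q →₀ ℚ) :
    toAlgRow Q n (shiftRow r d) = MonoidAlgebra.single r (1 : ℚ) • toAlgRow Q n d := by
  induction d using Finsupp.induction_linear with
  | zero => simp
  | add f g hf hg => simp [map_add, hf, hg]
  | single p c =>
    obtain ⟨j, s⟩ := p
    rw [shiftRow_apply, Finsupp.mapDomain_single, toAlgRow_single, toAlgRow_single]
    funext k
    by_cases hk : j = k
    · subst hk
      simp [MonoidAlgebra.single_mul_single]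
    · simp [hk]

/-- The augmentation `ℚ[Q] → ℚ`. -/
noncomputable def aug (Q : Type*) [CommGroup Q] : MonoidAlgebra ℚ Q →ₐ[ℚ] ℚ :=
  MonoidAlgebra.lift ℚ ℚ Q 1

omit [NoZeroDivisors (MonoidAlgebra ℚ Q)] in
lemma aug_toAlgRow (d : Fin n × Q →₀ ℚ) (j : Fin n) :
    aug Q (toAlgRow Q n d j) = fstRow (Fin n) Q d j := by
  induction d using Finsupp.induction_linear with
  | zero => simp
  | add f g hf hg => simp [map_add, hf, hg]
  | single p c =>
    obtain ⟨k, s⟩ := p
    rw [toAlgRow_single, fstRow_single]
    by_cases hk : k = j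
    · subst hk
      simp [aug]
    · simp [hk]

/-- Key regularity statement: if the augmented rows are linearly independent over `ℚ`, then
all translates of the rows are linearly independent over `ℚ`. -/
theorem linearIndependent_shiftRow (d : Fin m → (Fin n × Q →₀ ℚ))
    (hd : LinearIndependent ℚ fun i => fstRow (Fin n) Q (d i)) :
    LinearIndependent ℚ fun p : Fin m × Q => shiftRow p.2 (d p.1) := by
  classical
  let D : Matrix (Fin m) (Fin n) (MonoidAlgebra ℚ Q) := Matrix.of fun i => toAlgRow Q n (d i)
  let A : Matrix (Fin m) (Fin n) ℚ := Matrix.of fun i j => fstRow (Fin n) Q (d i) j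
  have hA : LinearIndependent ℚ fun i : Fin m => fun j : Fin n => A i j := by
    have := hd.map' (Finsupp.linearEquivFunOnFinite ℚ ℚ (Fin n)).toLinearMap
      (LinearMap.ker_eq_bot.mpr (Finsupp.linearEquivFunOnFinite ℚ ℚ (Fin n)).injective)
    exact this
  obtain ⟨B, hB⟩ := exists_rightInverse_of_linearIndependent A hA
  let B' : Matrix (Fin n) (Fin m) (MonoidAlgebra ℚ Q) :=
    B.map (algebraMap ℚ (MonoidAlgebra ℚ Q))
  have hDA : D.map (aug Q) = A := by
    ext i j
    simp [D, A, aug_toAlgRow]
  have hM : ((aug Q : MonoidAlgebra ℚ Q →+* ℚ).mapMatrix (D * B')) = 1 := by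
    rw [RingHom.mapMatrix_apply, Matrix.map_mul]
    have h1 : D.map (aug Q : MonoidAlgebra ℚ Q →+* ℚ) = A := hDA
    have h2 : B'.map (aug Q : MonoidAlgebra ℚ Q →+* ℚ) = B := by
      ext i j
      simp [B', aug]
    rw [h1, h2, hB]
  have hdet : (D * B').det ≠ 0 := by
    intro h0
    have := RingHom.map_det (aug Q : MonoidAlgebra ℚ Q →+* ℚ) (D * B')
    rw [hM, h0, map_zero, Matrix.det_one] at this
    exact zero_ne_one this
  have hDli : LinearIndependent (MonoidAlgebra ℚ Q) fun i : Fin m => D i := by
    rw [Fintype.linearIndependent_iff]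
    intro g hg
    have h1 : Matrix.vecMul g D = 0 := by
      rw [Matrix.vecMul_eq_sum]
      exact hg
    have h2 : Matrix.vecMul g (D * B') = 0 := by
      rw [← Matrix.vecMul_vecMul, h1, Matrix.zero_vecMul]
    have h3 := Matrix.eq_zero_of_vecMul_eq_zero hdet h2
    intro i
    exact congrFun h3 i
  have hb : LinearIndependent ℚ fun r : Q => MonoidAlgebra.single r (1 : ℚ) := by
    have h0 : ⇑(MonoidAlgebra.basis Q ℚ) = fun r : Q => MonoidAlgebra.single r (1 : ℚ) :=
      funext (MonoidAlgebra.basis_apply ℚ)
    rw [← h0]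
    exact (MonoidAlgebra.basis Q ℚ).linearIndependent
  have key := linearIndependent_smul hb hDli
  apply LinearIndependent.of_comp (toAlgRow Q n)
  have hcomp : (toAlgRow Q n ∘ fun p : Fin m × Q => shiftRow p.2 (d p.1)) =
      (fun p : Q × Fin m => MonoidAlgebra.single p.1 (1 : ℚ) • D p.2) ∘
        (Equiv.prodComm (Fin m) Q) := by
    funext p
    rw [Function.comp_apply, Function.comp_apply, toAlgRow_shiftRow]
    rfl
  rw [hcomp]
  exact key.comp _ (Equiv.injective _)

end Regular

end Vale.Agent.H47.Howie
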