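import Vale.Agent.H47.Howie.Regular

/-!
# The regularity statement for arbitrary index types

`linearIndependent_shiftRow` of `Regular` is extended from `Fin m`, `Fin n` to arbitrary types of
equations and unknowns.
-/

namespace Vale.Agent.H47.Howie

section RegularGen

variable {Q : Type*} {X : Type*} {m : ℕ}

/-- The map `L ⊗ id` on finitely supported functions on `X × Q`, for a linear map `L` on
finitely supported functions on `X`. -/
noncomputable def tensQ (Q : Type*) (L : (X →₀ ℚ) →ₗ[ℚ] (Fin m →₀ ℚ)) :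
    (X × Q →₀ ℚ) →ₗ[ℚ] (Fin m × Q →₀ ℚ) :=
  Finsupp.lsum ℚ fun p : X × Q =>
    (Finsupp.lmapDomain ℚ ℚ (fun j : Fin m => (j, p.2))) ∘ₗ L ∘ₗ (Finsupp.lsingle p.1)

lemma tensQ_single (L : (X →₀ ℚ) →ₗ[ℚ] (Fin m →₀ ℚ)) (x : X) (s : Q) (c : ℚ) :
    tensQ Q L (Finsupp.single (x, s) c) =
      Finsupp.mapDomain (fun j : Fin m => (j, s)) (L (Finsupp.single x c)) := by
  simp [tensQ]

lemma tensQ_shiftRow [Group Q] (L : (X →₀ ℚ) →ₗ[ℚ] (Fin m →₀ ℚ)) (r : Q) (d : X × Q →₀ ℚ) :
    tensQ Q L (shiftRow r d) = shiftRow r (tensQ Q L d) := by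
  induction d using Finsupp.induction_linear with
  | zero => simp
  | add f g hf hg => simp [map_add, hf, hg]
  | single p c =>
    obtain ⟨x, s⟩ := p
    rw [shiftRow_apply, Finsupp.mapDomain_single, tensQ_single, tensQ_single, shiftRow_apply,
      ← Finsupp.mapDomain_comp]
    rfl

lemma fstRow_tensQ (L : (X →₀ ℚ) →ₗ[ℚ] (Fin m →₀ ℚ)) (d : X × Q →₀ ℚ) :
    fstRow (Fin m) Q (tensQ Q L d) = L (fstRow X Q d) := by
  induction d using Finsupp.induction_linear with
  | zero => simp
  | add f g hf hg => simp [map_add, hf, hg]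
  | single p c =>
    obtain ⟨x, s⟩ := p
    rw [tensQ_single, fstRow_single]
    unfold fstRow
    rw [Finsupp.lmapDomain_apply, ← Finsupp.mapDomain_comp]
    exact Finsupp.mapDomain_id

variable [CommGroup Q] [NoZeroDivisors (MonoidAlgebra ℚ Q)]

theorem linearIndependent_shiftRow_fin (d : Fin m → (X × Q →₀ ℚ))
    (hd : LinearIndependent ℚ fun i => fstRow X Q (d i)) :
    LinearIndependent ℚ fun p : Fin m × Q => shiftRow p.2 (d p.1) := by
  classical
  obtain ⟨L, hL⟩ := LinearMap.exists_leftInverse_of_injective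
    (Finsupp.linearCombination ℚ fun i => fstRow X Q (d i)) (LinearMap.ker_eq_bot.mpr hd)
  have hL1 : ∀ i, L (fstRow X Q (d i)) = Finsupp.single i 1 := by
    intro i
    have := DFunLike.congr_fun hL (Finsupp.single i 1)
    simpa [Finsupp.linearCombination_single] using this
  have hd' : LinearIndependent ℚ fun i => fstRow (Fin m) Q (tensQ Q L (d i)) := by
    simp only [fstRow_tensQ, hL1]
    have := (Finsupp.basisSingleOne (R := ℚ) (ι := Fin m)).linearIndependent
    rwa [Finsupp.coe_basisSingleOne] at this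
  have key := linearIndependent_shiftRow (fun i => tensQ Q L (d i)) hd'
  apply LinearIndependent.of_comp (tensQ Q L)
  have hcomp : (tensQ Q L ∘ fun p : Fin m × Q => shiftRow p.2 (d p.1)) =
      fun p : Fin m × Q => shiftRow p.2 (tensQ Q L (d p.1)) := by
    funext p
    simp [tensQ_shiftRow]
  rw [hcomp]
  exact key

/-- Regularity for arbitrary index types: if the rows `fstRow (d i)` are linearly independent
over `ℚ`, then all translates of the rows `d i` are linearly independent over `ℚ`. -/
theorem linearIndependent_shiftRow_gen {I : Type*} (d : I → (X × Q →₀ ℚ))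
    (hd : LinearIndependent ℚ fun i => fstRow X Q (d i)) :
    LinearIndependent ℚ fun p : I × Q => shiftRow p.2 (d p.1) := by
  classical
  rw [linearIndependent_iff_finset_linearIndependent]
  intro s
  let T : Finset I := s.image Prod.fst
  let e : Fin T.card → I := fun k => (T.equivFin.symm k : I)
  have he : Function.Injective e := fun a b hab =>
    T.equivFin.symm.injective (Subtype.ext hab)
  have key := linearIndependent_shiftRow_fin (fun k => d (e k)) (hd.comp e he)
  have hmem : ∀ p : s, p.1.1 ∈ T := fun p =>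
    Finset.mem_image.mpr ⟨p.1, p.2, rfl⟩
  let φ : s → Fin T.card × Q := fun p => (T.equivFin ⟨p.1.1, hmem p⟩, p.1.2)
  have hφ : Function.Injective φ := by
    intro a b hab
    have h1 : T.equivFin ⟨a.1.1, hmem a⟩ = T.equivFin ⟨b.1.1, hmem b⟩ :=
      congrArg (fun z : Fin T.card × Q => z.1) hab
    have h2 : a.1.2 = b.1.2 := congrArg (fun z : Fin T.card × Q => z.2) hab
    have h3 : a.1.1 = b.1.1 := congrArg Subtype.val (T.equivFin.injective h1)
    exact Subtype.ext (Prod.ext h3 h2)
  have hcomp : ((fun p : I × Q => shiftRow p.2 (d p.1)) ∘ (Subtype.val : s → I × Q)) =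
      (fun p : Fin T.card × Q => shiftRow p.2 (d (e p.1))) ∘ φ := by
    funext p
    simp [φ, e]
  rw [hcomp]
  exact key.comp φ hφ

end RegularGen

end Vale.Agent.H47.Howie
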