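import Vale.Agent.H47.Howie.Compact
import Vale.Agent.H47.Howie.CoprodInj

/-!
# Words, certificates and their cost

Elements of `P * F(X)` are represented by words, i.e. lists of syllables in `P ⊕ F(X)`.
A certificate is a finite product of conjugates of relators and their inverses; its cost counts
the coefficient syllables lying outside a given subgroup.
-/

namespace Vale.Agent.H47.Howie

open Monoid (Coprod)

universe u

section Cpow

variable {K : Type*} [Group K]

/-- The element `z` (for `true`) or its inverse (for `false`). -/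
def cpow (ε : Bool) (z : K) : K := if ε then z else z⁻¹

lemma map_cpow {K' : Type*} [Group K'] (Φ : K →* K') (ε : Bool) (z : K) :
    Φ (cpow ε z) = cpow ε (Φ z) := by
  cases ε <;> simp [cpow]

/-- The product of the conjugates `u * (w i)^(±1) * u⁻¹` listed in `c`. -/
def certEl {I : Type*} (w : I → K) (c : List (I × Bool × K)) : K :=
  (c.map fun t => t.2.2 * cpow t.2.1 (w t.1) * t.2.2⁻¹).prod

lemma certEl_nil {I : Type*} (w : I → K) : certEl w [] = 1 := rfl

lemma certEl_append {I : Type*} (w : I → K) (c c' : List (I × Bool × K)) :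
    certEl w (c ++ c') = certEl w c * certEl w c' := by
  simp [certEl]

lemma certEl_mem {I : Type*} (w : I → K) (c : List (I × Bool × K)) :
    certEl w c ∈ Subgroup.normalClosure (Set.range w) := by
  unfold certEl
  apply Subgroup.list_prod_mem
  intro x hx
  obtain ⟨t, -, rfl⟩ := List.mem_map.mp hx
  have h1 : w t.1 ∈ Subgroup.normalClosure (Set.range w) :=
    Subgroup.subset_normalClosure ⟨t.1, rfl⟩
  have h2 : cpow t.2.1 (w t.1) ∈ Subgroup.normalClosure (Set.range w) := by
    unfold cpow
    split
    · exact h1
    · exact inv_mem h1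
  exact Subgroup.Normal.conj_mem Subgroup.normalClosure_normal _ h2 _

lemma exists_certEl_inv {I : Type*} (w : I → K) (c : List (I × Bool × K)) :
    ∃ c', (certEl w c)⁻¹ = certEl w c' := by
  induction c with
  | nil => exact ⟨[], by simp [certEl]⟩
  | cons t c ih =>
    obtain ⟨c', hc'⟩ := ih
    refine ⟨c' ++ [(t.1, !t.2.1, t.2.2)], ?_⟩
    rw [certEl_append, ← hc']
    have h1 : certEl w (t :: c) = t.2.2 * cpow t.2.1 (w t.1) * t.2.2⁻¹ * certEl w c := by
      simp [certEl]
    rw [h1, mul_inv_rev]
    congr 1
    obtain ⟨i, ε, u⟩ := t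
    cases ε <;> simp [certEl, cpow, mul_assoc]

lemma exists_certEl {I : Type*} (w : I → K) {z : K}
    (hz : z ∈ Subgroup.normalClosure (Set.range w)) :
    ∃ c : List (I × Bool × K), z = certEl w c := by
  unfold Subgroup.normalClosure at hz
  induction hz using Subgroup.closure_induction with
  | mem x hx =>
    rw [Group.mem_conjugatesOfSet_iff] at hx
    obtain ⟨b, ⟨i, rfl⟩, hb⟩ := hx
    obtain ⟨u, rfl⟩ := isConj_iff.mp hb
    exact ⟨[(i, true, u)], by simp [certEl, cpow]⟩
  | one => exact ⟨[], rfl⟩
  | mul x y _ _ hx hy =>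
    obtain ⟨c1, rfl⟩ := hx
    obtain ⟨c2, rfl⟩ := hy
    exact ⟨c1 ++ c2, (certEl_append w c1 c2).symm⟩
  | inv x _ hx =>
    obtain ⟨c, rfl⟩ := hx
    exact exists_certEl_inv w c

end Cpow

section Words

variable {P : Type*} [Group P] {X : Type*}

/-- The element of `P * F(X)` represented by a syllable. -/
def letterEl : P ⊕ FreeGroup X → Coprod P (FreeGroup X)
  | Sum.inl p => Coprod.inl p
  | Sum.inr f => Coprod.inr f

/-- The element of `P * F(X)` represented by a word. -/
def evalW (l : List (P ⊕ FreeGroup X)) : Coprod P (FreeGroup X) := (l.map letterEl).prod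

@[simp] lemma evalW_nil : evalW ([] : List (P ⊕ FreeGroup X)) = 1 := rfl

@[simp] lemma evalW_cons (a : P ⊕ FreeGroup X) (l : List (P ⊕ FreeGroup X)) :
    evalW (a :: l) = letterEl a * evalW l := by
  simp [evalW]

lemma evalW_append (l l' : List (P ⊕ FreeGroup X)) :
    evalW (l ++ l') = evalW l * evalW l' := by
  simp [evalW]

lemma exists_word (z : Coprod P (FreeGroup X)) : ∃ l : List (P ⊕ FreeGroup X), evalW l = z := by
  induction z using Coprod.induction_on with
  | inl g => exact ⟨[Sum.inl g], by simp [letterEl]⟩
  | inr f => exact ⟨[Sum.inr f], by simp [letterEl]⟩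
  | mul x y ihx ihy =>
    obtain ⟨l1, h1⟩ := ihx
    obtain ⟨l2, h2⟩ := ihy
    exact ⟨l1 ++ l2, by rw [evalW_append, h1, h2]⟩

/-- A chosen word representing a given element. -/
noncomputable def wordOf (z : Coprod P (FreeGroup X)) : List (P ⊕ FreeGroup X) :=
  Classical.choose (exists_word z)

lemma evalW_wordOf (z : Coprod P (FreeGroup X)) : evalW (wordOf z) = z :=
  Classical.choose_spec (exists_word z)

/-- Apply a function to the coefficient syllables of a word. -/
def mapWord {P' : Type*} (φ : P → P') (l : List (P ⊕ FreeGroup X)) : List (P' ⊕ FreeGroup X) :=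
  l.map (Sum.map φ id)

omit [Group P] in
lemma mem_mapWord {P' : Type*} (φ : P → P') (l : List (P ⊕ FreeGroup X)) (p : P)
    (hp : Sum.inl p ∈ l) : Sum.inl (φ p) ∈ mapWord φ l :=
  List.mem_map.mpr ⟨Sum.inl p, hp, rfl⟩

lemma evalW_mapWord {P' : Type*} [Group P'] (j : P' →* P) (retr : P → P')
    (l : List (P ⊕ FreeGroup X)) (h : ∀ p, Sum.inl p ∈ l → j (retr p) = p) :
    Coprod.map j (MonoidHom.id (FreeGroup X)) (evalW (mapWord retr l)) = evalW l := by
  induction l with
  | nil => simp [mapWord]
  | cons a l ih =>
    have ih' := ih (fun p hp => h p (List.mem_cons_of_mem _ hp))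
    have hcons : mapWord retr (a :: l) = Sum.map retr id a :: mapWord retr l := rfl
    rw [hcons, evalW_cons, evalW_cons, map_mul, ih']
    congr 1
    cases a with
    | inl p =>
      have := h p List.mem_cons_self
      simp [letterEl, this]
    | inr f => simp [letterEl]

lemma expRow_evalW_mapWord {P' : Type*} [Group P'] (φ : P → P') (l : List (P ⊕ FreeGroup X)) :
    expRow P' X (evalW (mapWord φ l)) = expRow P X (evalW l) := by
  induction l with
  | nil => simp [mapWord]
  | cons a l ih =>
    have hcons : mapWord φ (a :: l) = Sum.map φ id a :: mapWord φ l := rfl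
    rw [hcons, evalW_cons, evalW_cons, map_mul, map_mul, ih]
    congr 1
    cases a with
    | inl p => simp [letterEl, expRow]
    | inr f => simp [letterEl, expRow]

/-- The product of the conjugates listed in a certificate of words. -/
def certW {I : Type*} (W : I → List (P ⊕ FreeGroup X))
    (c : List (I × Bool × List (P ⊕ FreeGroup X))) : Coprod P (FreeGroup X) :=
  (c.map fun t => evalW t.2.2 * cpow t.2.1 (evalW (W t.1)) * (evalW t.2.2)⁻¹).prod

lemma certW_eq_certEl {I : Type*} (W : I → List (P ⊕ FreeGroup X))
    (c : List (I × Bool × List (P ⊕ FreeGroup X))) :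
    certW W c = certEl (fun i => evalW (W i)) (c.map fun t => (t.1, t.2.1, evalW t.2.2)) := by
  simp [certW, certEl, Function.comp_def]

lemma certW_mem {I : Type*} (W : I → List (P ⊕ FreeGroup X))
    (c : List (I × Bool × List (P ⊕ FreeGroup X))) :
    certW W c ∈ Subgroup.normalClosure (Set.range fun i => evalW (W i)) := by
  rw [certW_eq_certEl]
  exact certEl_mem _ _

/-- Transport of a certificate along a homomorphism. -/
lemma map_certW {P' X' I I' K : Type*} [Group P'] [Group K]
    (Φ : Coprod P (FreeGroup X) →* K) (Φ' : Coprod P' (FreeGroup X') →* K)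
    (W : I → List (P ⊕ FreeGroup X)) (c : List (I × Bool × List (P ⊕ FreeGroup X)))
    (W' : I' → List (P' ⊕ FreeGroup X'))
    (τ : I × Bool × List (P ⊕ FreeGroup X) → I' × Bool × List (P' ⊕ FreeGroup X'))
    (h : ∀ t ∈ c, (τ t).2.1 = t.2.1 ∧ Φ' (evalW (τ t).2.2) = Φ (evalW t.2.2) ∧
      Φ' (evalW (W' (τ t).1)) = Φ (evalW (W t.1))) :
    Φ' (certW W' (c.map τ)) = Φ (certW W c) := by
  unfold certW
  rw [map_list_prod, map_list_prod, List.map_map, List.map_map, List.map_map]
  congr 1
  apply List.map_congr_left
  intro t ht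
  obtain ⟨h1, h2, h3⟩ := h t ht
  simp [map_cpow, h1, h2, h3]

end Words

section Bad

variable {P : Type*} [Group P] {X : Type*} {G : Type*} [Group G]

open Classical in
/-- The number of coefficient syllables of a word whose image under `ρ` is outside `N`. -/
noncomputable def badW (ρ : P →* G) (N : Subgroup G) : List (P ⊕ FreeGroup X) → ℕ
  | [] => 0
  | Sum.inl p :: l => (if ρ p ∈ N then 0 else 1) + badW ρ N l
  | Sum.inr _ :: l => badW ρ N l

lemma badW_mapWord {P' : Type*} [Group P'] (ρ : P →* G) (N : Subgroup G) (j : P' →* P)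
    (retr : P → P') (l : List (P ⊕ FreeGroup X)) (h : ∀ p, Sum.inl p ∈ l → j (retr p) = p) :
    badW (ρ.comp j) N (mapWord retr l) = badW ρ N l := by
  induction l with
  | nil => rfl
  | cons a l ih =>
    have ih' := ih (fun p hp => h p (List.mem_cons_of_mem _ hp))
    cases a with
    | inl p =>
      have hp := h p List.mem_cons_self
      have hcons : mapWord retr (Sum.inl p :: l) = Sum.inl (retr p) :: mapWord retr l := rfl
      rw [hcons, badW, badW, ih', MonoidHom.comp_apply, hp]
    | inr f =>
      have hcons : mapWord retr (Sum.inr f :: l) = Sum.inr f :: mapWord retr l := rfl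
      rw [hcons, badW, badW, ih']

lemma mem_of_badW_eq_zero (ρ : P →* G) (N : Subgroup G) (l : List (P ⊕ FreeGroup X))
    (h : badW ρ N l = 0) (p : P) (hp : Sum.inl p ∈ l) : ρ p ∈ N := by
  induction l with
  | nil => simp at hp
  | cons a l ih =>
    cases a with
    | inl p' =>
      rw [badW] at h
      rcases List.mem_cons.mp hp with hp | hp
      · have : p = p' := Sum.inl.inj hp
        subst this
        by_contra hn
        rw [if_neg hn] at h
        omega
      · exact ih (by omega) hp
    | inr f =>
      rw [badW] at h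
      rcases List.mem_cons.mp hp with hp | hp
      · simp at hp
      · exact ih h hp

/-- The cost of a certificate: the number of coefficient syllables outside `N` in the words of
the relators used and in the conjugating words. -/
noncomputable def costW {I : Type*} (ρ : P →* G) (N : Subgroup G)
    (W : I → List (P ⊕ FreeGroup X)) (c : List (I × Bool × List (P ⊕ FreeGroup X))) : ℕ :=
  (c.map fun t => badW ρ N (W t.1) + badW ρ N t.2.2).sum

end Bad

end Vale.Agent.H47.Howie
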