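import Vale.Agent.H47.Howie.Sect
import Vale.Agent.H47.Howie.Words

/-!
# Rewriting words and certificates through the wreath product

The rewriting homomorphism `thetaU` is computed on words, syllable by syllable, and a certificate
over `G` is transported to a certificate over `ker π` of the same length whose cost does not
increase.
-/

namespace Vale.Agent.H47.Howie

open Monoid (Coprod)

section WreathLemmas

variable {Q A : Type*} [Group Q] [Group A]

lemma wr_mul_left (a b : SemidirectProduct (Q → A) Q (transAut Q A)) (r : Q) :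
    (a * b).left r = a.left r * b.left (r * a.right) := by
  rw [SemidirectProduct.mul_left, Pi.mul_apply, transAut_apply]

lemma wr_inv_left (a : SemidirectProduct (Q → A) Q (transAut Q A)) (r : Q) :
    (a⁻¹).left r = (a.left (r * a.right⁻¹))⁻¹ := by
  rw [SemidirectProduct.inv_left, transAut_apply, Pi.inv_apply]

lemma wr_cpow_left (ε : Bool) (w : SemidirectProduct (Q → A) Q (transAut Q A))
    (hw : w.right = 1) (s : Q) : (cpow ε w).left s = cpow ε (w.left s) := by
  cases ε <;> simp [cpow, wr_inv_left, hw]

lemma wr_cpow_right (ε : Bool) (w : SemidirectProduct (Q → A) Q (transAut Q A))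
    (hw : w.right = 1) : (cpow ε w).right = 1 := by
  cases ε <;> simp [cpow, hw]

lemma wr_conj_right (u w : SemidirectProduct (Q → A) Q (transAut Q A)) (hw : w.right = 1)
    (ε : Bool) : (u * cpow ε w * u⁻¹).right = 1 := by
  simp [wr_cpow_right ε w hw]

lemma wr_conj_left (u w : SemidirectProduct (Q → A) Q (transAut Q A)) (hw : w.right = 1)
    (ε : Bool) (r : Q) :
    (u * cpow ε w * u⁻¹).left r = u.left r * cpow ε (w.left (r * u.right)) * (u.left r)⁻¹ := by
  rw [wr_mul_left, wr_mul_left, wr_inv_left, wr_cpow_left ε w hw, SemidirectProduct.mul_right,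
    wr_cpow_right ε w hw]
  simp

lemma wr_list_prod (l : List (SemidirectProduct (Q → A) Q (transAut Q A)))
    (h : ∀ x ∈ l, x.right = 1) (r : Q) :
    l.prod.left r = (l.map fun x => x.left r).prod ∧ l.prod.right = 1 := by
  induction l with
  | nil => simp
  | cons a l ih =>
    have ha : a.right = 1 := h a List.mem_cons_self
    obtain ⟨ih1, ih2⟩ := ih (fun x hx => h x (List.mem_cons_of_mem _ hx))
    constructor
    · rw [List.prod_cons, wr_mul_left, ha, mul_one, ih1, List.map_cons, List.prod_cons]
    · rw [List.prod_cons, SemidirectProduct.mul_right, ha, ih2, mul_one]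

end WreathLemmas

section RewriteW

variable {G Q : Type*} [Group G] [Group Q] {π : G →* Q} {σ : Q → G} (hσ : IsSect π σ)
  {X : Type*} (q : X → Q)

/-- The rewriting of a word at level `r`, syllable by syllable. -/
def rewriteW : List (G ⊕ FreeGroup X) → Q → List (π.ker ⊕ FreeGroup (X × Q))
  | [], _ => []
  | Sum.inl p :: l, r => Sum.inl (kkc hσ p r) :: rewriteW l (r * π p)
  | Sum.inr f :: l, r => Sum.inr ((thetaF q f).left r) :: rewriteW l (r * FreeGroup.lift q f)

lemma evalW_rewriteW (l : List (G ⊕ FreeGroup X)) (r : Q) :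
    evalW (rewriteW hσ q l r) = (thetaU hσ q (evalW l)).left r := by
  induction l generalizing r with
  | nil => simp [rewriteW]
  | cons a l ih =>
    cases a with
    | inl p =>
      rw [rewriteW, evalW_cons, evalW_cons, ih, thetaU_mul_left]
      simp [letterEl]
    | inr f =>
      rw [rewriteW, evalW_cons, evalW_cons, ih, thetaU_mul_left]
      simp [letterEl]

/-- Rewriting a certificate: the `r`-component of the image of a certificate is a certificate
for the rewritten system. -/
theorem rewrite_certW {I : Type*} (W : I → List (G ⊕ FreeGroup X))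
    (c : List (I × Bool × List (G ⊕ FreeGroup X)))
    (hq : ∀ i, Coprod.lift π (FreeGroup.lift q) (evalW (W i)) = 1) (r : Q) :
    (thetaU hσ q (certW W c)).left r =
      certW (fun p : I × Q => rewriteW hσ q (W p.1) p.2)
        (c.map fun t => ((t.1, r * Coprod.lift π (FreeGroup.lift q) (evalW t.2.2)), t.2.1,
          rewriteW hσ q t.2.2 r)) ∧
    (thetaU hσ q (certW W c)).right = 1 := by
  have hright : ∀ i, (thetaU hσ q (evalW (W i))).right = 1 := fun i => by
    rw [thetaU_right, hq]
  unfold certW
  rw [map_list_prod, List.map_map]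
  have hall : ∀ x ∈ c.map ((thetaU hσ q) ∘ fun t =>
      evalW t.2.2 * cpow t.2.1 (evalW (W t.1)) * (evalW t.2.2)⁻¹), x.right = 1 := by
    intro x hx
    obtain ⟨t, -, rfl⟩ := List.mem_map.mp hx
    simp only [Function.comp_apply, map_mul, map_inv, map_cpow]
    exact wr_conj_right _ _ (hright t.1) _
  obtain ⟨h1, h2⟩ := wr_list_prod _ hall r
  refine ⟨?_, h2⟩
  rw [h1, List.map_map, List.map_map]
  congr 1
  apply List.map_congr_left
  intro t _
  simp only [Function.comp_apply, map_mul, map_inv, map_cpow]
  rw [wr_conj_left _ _ (hright t.1), evalW_rewriteW, evalW_rewriteW, thetaU_right]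

/-- The rewritten certificate identity at level `1`, for a section with `σ 1 = 1`. -/
theorem rewrite_state {I : Type*} (W : I → List (G ⊕ FreeGroup X))
    (c : List (I × Bool × List (G ⊕ FreeGroup X)))
    (hq : ∀ i, Coprod.lift π (FreeGroup.lift q) (evalW (W i)) = 1) (hσ1 : σ 1 = 1)
    (g : G) (hg : Coprod.inl g = certW W c) :
    ∃ hgk : g ∈ π.ker, (Coprod.inl (⟨g, hgk⟩ : π.ker) : Coprod π.ker (FreeGroup (X × Q))) =
      certW (fun p : I × Q => rewriteW hσ q (W p.1) p.2)
        (c.map fun t => ((t.1, Coprod.lift π (FreeGroup.lift q) (evalW t.2.2)), t.2.1,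
          rewriteW hσ q t.2.2 1)) := by
  obtain ⟨h1, h2⟩ := rewrite_certW hσ q W c hq 1
  rw [← hg] at h1 h2
  have hgk : π g = 1 := by simpa using h2
  refine ⟨hgk, ?_⟩
  simp only [one_mul] at h1
  rw [← h1, thetaU_inl, kkh_left]
  congr 1
  apply Subtype.ext
  simp [kkc, hgk, hσ1]

section Cost

variable {G₀ : Type*} [Group G₀] (ρ : G →* G₀) (N : Subgroup G₀) [N.Normal]

include hσ in
lemma map_kkc_mem (hgood : ∀ p, ρ p ∈ N → π p = 1) (p : G) (hp : ρ p ∈ N) (r : Q) :
    ρ (kkc hσ p r : G) ∈ N := by
  rw [kkc_val, hgood p hp, mul_one, map_mul, map_mul, map_inv]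
  exact Subgroup.Normal.conj_mem inferInstance _ hp _

lemma badW_rewriteW_le (hgood : ∀ p, ρ p ∈ N → π p = 1) (l : List (G ⊕ FreeGroup X)) (r : Q) :
    badW (ρ.comp π.ker.subtype) N (rewriteW hσ q l r) ≤ badW ρ N l := by
  classical
  induction l generalizing r with
  | nil => simp [rewriteW, badW]
  | cons a l ih =>
    cases a with
    | inl p =>
      rw [rewriteW, badW, badW]
      have h1 := ih (r * π p)
      by_cases hp : ρ p ∈ N
      · have h2 : (ρ.comp π.ker.subtype) (kkc hσ p r) ∈ N := map_kkc_mem hσ ρ N hgood p hp r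
        rw [if_pos hp, if_pos h2]
        omega
      · rw [if_neg hp]
        split_ifs <;> omega
    | inr f =>
      rw [rewriteW, badW, badW]
      exact ih _

lemma badW_rewriteW_lt (hgood : ∀ p, ρ p ∈ N → π p = 1) (p₀ : G) (hp₀ : ρ p₀ ∉ N)
    (hk : ∀ r, kkc hσ p₀ r = 1) (l : List (G ⊕ FreeGroup X)) (hmem : Sum.inl p₀ ∈ l) (r : Q) :
    badW (ρ.comp π.ker.subtype) N (rewriteW hσ q l r) < badW ρ N l := by
  classical
  induction l generalizing r with
  | nil => simp at hmem
  | cons a l ih =>
    rcases List.mem_cons.mp hmem with h | h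
    · subst h
      rw [rewriteW, badW, badW, hk r, if_neg hp₀]
      have h1 := badW_rewriteW_le hσ q ρ N hgood l (r * π p₀)
      have h2 : (ρ.comp π.ker.subtype) (1 : π.ker) ∈ N := by
        rw [map_one]
        exact one_mem N
      rw [if_pos h2]
      omega
    · cases a with
      | inl p =>
        rw [rewriteW, badW, badW]
        have h1 := ih h (r * π p)
        by_cases hp : ρ p ∈ N
        · have h2 : (ρ.comp π.ker.subtype) (kkc hσ p r) ∈ N := map_kkc_mem hσ ρ N hgood p hp r
          rw [if_pos hp, if_pos h2]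
          omega
        · rw [if_neg hp]
          split_ifs <;> omega
      | inr f =>
        rw [rewriteW, badW, badW]
        exact ih h _

/-- The cost of the rewritten certificate is strictly smaller as soon as one syllable `p₀`
outside `N`, whose cocycle is trivial, occurs in the words used. -/
theorem costW_rewrite_lt {I : Type*} (hgood : ∀ p, ρ p ∈ N → π p = 1) (p₀ : G) (hp₀ : ρ p₀ ∉ N)
    (hk : ∀ r, kkc hσ p₀ r = 1) (W : I → List (G ⊕ FreeGroup X))
    (c : List (I × Bool × List (G ⊕ FreeGroup X)))
    (hused : ∃ t ∈ c, Sum.inl p₀ ∈ W t.1 ∨ Sum.inl p₀ ∈ t.2.2) :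
    costW (ρ.comp π.ker.subtype) N (fun p : I × Q => rewriteW hσ q (W p.1) p.2)
        (c.map fun t => ((t.1, Coprod.lift π (FreeGroup.lift q) (evalW t.2.2)), t.2.1,
          rewriteW hσ q t.2.2 1)) < costW ρ N W c := by
  unfold costW
  rw [List.map_map]
  apply List.sum_lt_sum
  · intro t _
    simp only [Function.comp_apply]
    exact add_le_add (badW_rewriteW_le hσ q ρ N hgood _ _) (badW_rewriteW_le hσ q ρ N hgood _ _)
  · obtain ⟨t, ht, h⟩ := hused
    refine ⟨t, ht, ?_⟩
    simp only [Function.comp_apply]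
    rcases h with h | h
    · exact add_lt_add_of_lt_of_le (badW_rewriteW_lt hσ q ρ N hgood p₀ hp₀ hk _ h _)
        (badW_rewriteW_le hσ q ρ N hgood _ _)
    · exact add_lt_add_of_le_of_lt (badW_rewriteW_le hσ q ρ N hgood _ _)
        (badW_rewriteW_lt hσ q ρ N hgood p₀ hp₀ hk _ h _)

end Cost

end RewriteW

end Vale.Agent.H47.Howie
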