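import Vale.Agent.H47.Howie.Regular

/-!
# The wreath-product rewriting with a prescribed section

A variant of the rewriting of `Core` in which the section `σ : Q → G` of `π : G →* Q` used to
define the Kaloujnine-Krasner cocycle is a parameter.
-/

namespace Vale.Agent.H47.Howie

open Monoid (Coprod)

section KKS

variable {G Q : Type*} [Group G] [Group Q]

/-- `σ : Q → G` is compatible with `π : G →* Q`: `π (σ (r * π g)) = π (σ r) * π g`. -/
def IsSect (π : G →* Q) (σ : Q → G) : Prop :=
  ∀ (r : Q) (g : G), π (σ (r * π g)) = π (σ r) * π g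

variable {π : G →* Q} {σ : Q → G} (hσ : IsSect π σ)

/-- The Kaloujnine-Krasner cocycle attached to the section `σ`. -/
def kkc (g : G) (r : Q) : π.ker :=
  ⟨σ r * g * (σ (r * π g))⁻¹, by
    rw [MonoidHom.mem_ker, map_mul, map_mul, map_inv, hσ r g]; group⟩

lemma kkc_val (g : G) (r : Q) : (kkc hσ g r : G) = σ r * g * (σ (r * π g))⁻¹ := rfl

lemma kkc_mul (g h : G) (r : Q) :
    kkc hσ (g * h) r = kkc hσ g r * kkc hσ h (r * π g) := by
  apply Subtype.ext
  simp [kkc, mul_assoc]

lemma kkc_one (r : Q) : kkc hσ 1 r = 1 := by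
  apply Subtype.ext
  simp [kkc]

variable (X : Type*)

/-- The Kaloujnine-Krasner homomorphism into the wreath product of `ker π * F(X × Q)` by `Q`. -/
def kkh : G →* SemidirectProduct (Q → Coprod π.ker (FreeGroup (X × Q))) Q
    (transAut Q (Coprod π.ker (FreeGroup (X × Q)))) where
  toFun g := ⟨fun r => Coprod.inl (kkc hσ g r), π g⟩
  map_one' := by
    ext r
    · simp [kkc_one]
    · simp
  map_mul' g h := by
    ext r
    · simp [kkc_mul]
    · simp

@[simp] lemma kkh_left (g : G) (r : Q) :
    (kkh hσ X g).left r = Coprod.inl (kkc hσ g r) := rfl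

@[simp] lemma kkh_right (g : G) : (kkh hσ X g).right = π g := rfl

variable {X}

/-- The image of the free group on the unknowns in the wreath product of `F(X × Q)` by `Q`:
the unknown `x` goes to `(r ↦ (x, r), q x)`. -/
def thetaF (q : X → Q) : FreeGroup X →* SemidirectProduct (Q → FreeGroup (X × Q)) Q
    (transAut Q (FreeGroup (X × Q))) :=
  FreeGroup.lift fun x => ⟨fun r => FreeGroup.of (x, r), q x⟩

lemma thetaF_right (q : X → Q) (f : FreeGroup X) :
    (thetaF q f).right = FreeGroup.lift q f := by
  have : SemidirectProduct.rightHom.comp (thetaF q) = FreeGroup.lift q := by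
    ext x
    simp [thetaF]
  exact DFunLike.congr_fun this f

/-- The universal rewriting homomorphism `G * F(X) → (ker π * F(X × Q)) ≀ Q`. -/
def thetaU (q : X → Q) : Coprod G (FreeGroup X) →*
    SemidirectProduct (Q → Coprod π.ker (FreeGroup (X × Q))) Q
      (transAut Q (Coprod π.ker (FreeGroup (X × Q)))) :=
  Coprod.lift (kkh hσ X) ((wrMap Coprod.inr).comp (thetaF q))

@[simp] lemma thetaU_inl (q : X → Q) (g : G) :
    thetaU hσ q (Coprod.inl g) = kkh hσ X g := by
  simp [thetaU]

@[simp] lemma thetaU_inr (q : X → Q) (f : FreeGroup X) :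
    thetaU hσ q (Coprod.inr f) = wrMap Coprod.inr (thetaF q f) := by
  simp [thetaU]

lemma thetaU_right (q : X → Q) (γ : Coprod G (FreeGroup X)) :
    (thetaU hσ q γ).right = Coprod.lift π (FreeGroup.lift q) γ := by
  have : SemidirectProduct.rightHom.comp (thetaU hσ q) = Coprod.lift π (FreeGroup.lift q) := by
    apply Coprod.hom_ext
    · ext g
      simp
    · ext x
      simp [thetaF]
  exact DFunLike.congr_fun this γ

lemma thetaU_mul_left (q : X → Q) (a b : Coprod G (FreeGroup X)) (r : Q) :
    (thetaU hσ q (a * b)).left r = (thetaU hσ q a).left r *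
      (thetaU hσ q b).left (r * Coprod.lift π (FreeGroup.lift q) a) := by
  rw [map_mul, SemidirectProduct.mul_left, Pi.mul_apply, transAut_apply, thetaU_right]

/-- The exponent-sum row of the `r`-component of the rewriting of `γ`. -/
noncomputable def rowS (q : X → Q) (γ : Coprod G (FreeGroup X)) (r : Q) : X × Q →₀ ℚ :=
  Multiplicative.toAdd (expRow π.ker (X × Q) ((thetaU hσ q γ).left r))

lemma rowS_mul (q : X → Q) (a b : Coprod G (FreeGroup X)) (r : Q) :
    rowS hσ q (a * b) r = rowS hσ q a r +
      rowS hσ q b (r * Coprod.lift π (FreeGroup.lift q) a) := by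
  simp [rowS, thetaU_right]

lemma rowS_inv (q : X → Q) (a : Coprod G (FreeGroup X)) (r : Q) :
    rowS hσ q a⁻¹ r = - rowS hσ q a (r * (Coprod.lift π (FreeGroup.lift q) a)⁻¹) := by
  simp [rowS, thetaU_right]

lemma rowS_inl (q : X → Q) (g : G) (r : Q) : rowS hσ q (Coprod.inl g) r = 0 := by
  simp [rowS, expRow]

lemma rowS_of (q : X → Q) (x : X) (r : Q) :
    rowS hσ q (Coprod.inr (FreeGroup.of x)) r = Finsupp.single (x, r) 1 := by
  simp [rowS, thetaF, expRow]

lemma rowS_eq_shiftRow (q : X → Q) (γ : Coprod G (FreeGroup X)) (r : Q) :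
    rowS hσ q γ r = shiftRow r (rowS hσ q γ 1) := by
  induction γ using coprod_free_induction generalizing r with
  | inl g => simp [rowS_inl]
  | of x => simp [rowS_of, shiftRow_apply, Finsupp.mapDomain_single]
  | mul a b iha ihb =>
    rw [rowS_mul, rowS_mul, iha r, ihb (r * _), ihb (1 * _), one_mul, map_add, shiftRow_mul]
  | inv a iha =>
    rw [rowS_inv, rowS_inv, iha (r * _), iha (1 * _), one_mul, map_neg, shiftRow_mul]

lemma fstRow_rowS (q : X → Q) (γ : Coprod G (FreeGroup X)) (r : Q) :
    fstRow X Q (rowS hσ q γ r) = Multiplicative.toAdd (expRow G X γ) := by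
  induction γ using coprod_free_induction generalizing r with
  | inl g => simp [rowS_inl, expRow]
  | of x => simp [rowS_of, expRow, fstRow_single]
  | mul a b iha ihb =>
    rw [rowS_mul, map_add, iha, ihb, map_mul, toAdd_mul]
  | inv a iha =>
    rw [rowS_inv, map_neg, iha, map_inv, toAdd_inv]

end KKS

end Vale.Agent.H47.Howie
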