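import Vale.Agent.H47.Howie.RegularGen
import Vale.Agent.H47.Howie.Rewrite
import Vale.Agent.H47.Howie.Levels
import Vale.Agent.H47.Howie.Indicable

/-!
# Howie's property is decided by finitely generated subgroups without maps onto `ℤ`

Main results:

* `howieProperty_of_fg_dichotomy`: if every finitely generated subgroup of `G` either has
  Howie's property (every nonsingular finite system over it is solvable) or maps onto `ℤ`, then
  `G` has Howie's property.
* `howieProperty_iff_fg_nonindicable`: `G` has Howie's property if and only if every finitely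
  generated subgroup of `G` without nontrivial homomorphisms to `ℤ` has it.
* `howieProperty_of_locallyIndicable_quotient`: Howie's property passes from a normal subgroup
  `N` to `G` when `G ⧸ N` is locally indicable.
* `howieProperty_of_fg_groups`: Howie's conjecture for all groups follows from Howie's conjecture
  for finitely generated groups without nontrivial homomorphisms to `ℤ`.

The proof is an algebraic form of the tower argument: a certificate expressing a coefficient as
a product of conjugates of the relators is rewritten, through Kaloujnine-Krasner embeddings into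
wreath products by `ℚ`, into certificates of the same length over smaller and smaller subgroups,
and the number of nontrivial coefficient syllables strictly decreases at each step.
-/

namespace Vale.Agent.H47.Howie

open Monoid (Coprod)

universe u

section Terminal

/-- If every nonsingular finite system over `N` is solvable, then for every system over `N`
(arbitrary index types) with linearly independent exponent-sum rows, the normal closure of the
system in `N * F(X)` meets `N` trivially. -/
theorem eq_one_of_mem_normalClosure {N : Type u} [Group N] (hN : HowieProperty N)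
    {I : Type*} {X : Type*} (S : I → Coprod N (FreeGroup X))
    (hS : LinearIndependent ℚ fun i => Multiplicative.toAdd (expRow N X (S i)))
    (g : N) (hgR : Coprod.inl g ∈ Subgroup.normalClosure (Set.range S)) : g = 1 := by
  classical
  obtain ⟨T, hT⟩ := exists_finset_normalClosure S hgR
  choose Yf hYf using fun z : Coprod N (FreeGroup X) => exists_lettersSubgroup z
  let Y : Finset X := T.biUnion fun i => Yf (S i)
  let m := T.card
  let n := Y.card
  let t : Fin m → I := fun k => (T.equivFin.symm k : I)
  let e : Fin n → X := fun k => (Y.equivFin.symm k : X)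
  have ht : Function.Injective t := fun a b hab =>
    T.equivFin.symm.injective (Subtype.ext hab)
  have he : Function.Injective e := fun a b hab =>
    Y.equivFin.symm.injective (Subtype.ext hab)
  have heY : ∀ x ∈ Y, ∃ k, e k = x := fun x hx =>
    ⟨Y.equivFin ⟨x, hx⟩, by simp [e]⟩
  have hmem : ∀ k : Fin m, S (t k) ∈
      (Coprod.map (MonoidHom.id N) (FreeGroup.map e)).range := fun k => by
    apply lettersSubgroup_le_range Y e heY
    apply lettersSubgroup_mono _ (hYf (S (t k)))
    exact Finset.subset_biUnion_of_mem (fun i => Yf (S i)) (T.equivFin.symm k).2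
  choose S' hS' using fun k => MonoidHom.mem_range.mp (hmem k)
  have hns : IsNonsingular S' := by
    unfold IsNonsingular
    let Λ : (Fin n → ℚ) →ₗ[ℚ] (X →₀ ℚ) :=
      (Finsupp.lmapDomain ℚ ℚ e).comp
        (Finsupp.linearEquivFunOnFinite ℚ ℚ (Fin n)).symm.toLinearMap
    apply LinearIndependent.of_comp Λ
    have hcomp : (Λ ∘ fun (i : Fin m) (j : Fin n) =>
        ((Multiplicative.toAdd (expSum N n (S' i)) j : ℤ) : ℚ)) =
        fun k => Multiplicative.toAdd (expRow N X (S (t k))) := by
      funext k
      rw [← hS' k, expRow_map, expRow_fin]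
      rfl
    rw [hcomp]
    exact hS.comp t ht
  obtain ⟨H, _, f, h, hf, hsol⟩ := hN m n S' hns
  let η : X → H := Function.extend e h 1
  let L : Coprod N (FreeGroup X) →* H := Coprod.lift f (FreeGroup.lift η)
  have hL : L.comp (Coprod.map (MonoidHom.id N) (FreeGroup.map e)) =
      Coprod.lift f (FreeGroup.lift h) := by
    apply Coprod.hom_ext
    · ext g
      simp [L]
    · ext k
      simp [L, η, he.extend_apply]
  have hker : Subgroup.normalClosure (S '' (T : Set I)) ≤ L.ker := by
    apply Subgroup.normalClosure_le_normal
    rintro _ ⟨i, hi, rfl⟩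
    have hi' : i = t (T.equivFin ⟨i, hi⟩) := by simp [t]
    rw [hi', SetLike.mem_coe, MonoidHom.mem_ker, ← hS', ← MonoidHom.comp_apply, hL]
    exact hsol _
  have h1 : L (Coprod.inl g) = 1 := hker hT
  have h2 : f g = 1 := by simpa [L] using h1
  rw [← map_one f] at h2
  exact hf h2

lemma expSum_map {M N : Type u} [Group M] [Group N] (ι : M →* N) (n : ℕ)
    (z : Coprod M (FreeGroup (Fin n))) :
    expSum N n (Coprod.map ι (MonoidHom.id _) z) = expSum M n z := by
  have h : (expSum N n).comp (Coprod.map ι (MonoidHom.id _)) = expSum M n := by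
    apply Coprod.hom_ext
    · ext g
      simp [expSum]
    · ext x
      simp [expSum]
  exact DFunLike.congr_fun h z

/-- Howie's property passes to subgroups (more generally along injective homomorphisms). -/
theorem howieProperty_of_injective {N M : Type u} [Group N] [Group M] (hN : HowieProperty N)
    (ι : M →* N) (hι : Function.Injective ι) : HowieProperty M := by
  intro m n w hw
  have hw' : IsNonsingular fun i => Coprod.map ι (MonoidHom.id _) (w i) := by
    unfold IsNonsingular at hw ⊢
    simpa only [expSum_map] using hw
  obtain ⟨H, _, f, h, hf, hsol⟩ := hN m n _ hw'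
  refine ⟨H, inferInstance, f.comp ι, h, hf.comp hι, fun i => ?_⟩
  have h1 : (Coprod.lift f (FreeGroup.lift h)).comp (Coprod.map ι (MonoidHom.id _)) =
      Coprod.lift (f.comp ι) (FreeGroup.lift h) := by
    apply Coprod.hom_ext
    · ext g
      simp
    · ext x
      simp
  rw [← h1]
  exact hsol i

end Terminal

section Pullback

/-- Pulling a certificate back along an injective homomorphism `j : P' →* P` whose image
contains all coefficient syllables of the words used. -/
theorem pullback_cert {P' P : Type u} [Group P'] [Group P] {X I : Type} (j : P' →* P)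
    (hj : Function.Injective j) (retr : P → P')
    (W : I → List (P ⊕ FreeGroup X)) (c : List (I × Bool × List (P ⊕ FreeGroup X))) (g : P)
    (hused : ∀ t ∈ c, ∀ p, (Sum.inl p ∈ W t.1 ∨ Sum.inl p ∈ t.2.2) → j (retr p) = p)
    (hg : Coprod.inl g = certW W c) :
    ∃ g' : P', j g' = g ∧ Coprod.inl g' = certW (fun i => mapWord retr (W i))
      (c.map fun t => (t.1, t.2.1, mapWord retr t.2.2)) := by
  have hmap : Coprod.map j (MonoidHom.id (FreeGroup X))
      (certW (fun i => mapWord retr (W i)) (c.map fun t => (t.1, t.2.1, mapWord retr t.2.2))) =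
      certW W c := by
    have := map_certW (MonoidHom.id (Coprod P (FreeGroup X)))
      (Coprod.map j (MonoidHom.id (FreeGroup X))) W c (fun i => mapWord retr (W i))
      (fun t => (t.1, t.2.1, mapWord retr t.2.2)) (by
        intro t ht
        refine ⟨rfl, ?_, ?_⟩
        · exact evalW_mapWord j retr t.2.2 (fun p hp => hused t ht p (Or.inr hp))
        · exact evalW_mapWord j retr (W t.1) (fun p hp => hused t ht p (Or.inl hp)))
    simpa using this
  let κ' : Coprod P' (FreeGroup X) →* P' := Coprod.lift (MonoidHom.id P') 1
  let κ : Coprod P (FreeGroup X) →* P := Coprod.lift (MonoidHom.id P) 1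
  have hκ : ∀ z, κ (Coprod.map j (MonoidHom.id _) z) = j (κ' z) := by
    intro z
    have : κ.comp (Coprod.map j (MonoidHom.id (FreeGroup X))) = j.comp κ' := by
      apply Coprod.hom_ext
      · ext p
        simp [κ, κ']
      · ext x
        simp [κ, κ']
    exact DFunLike.congr_fun this z
  have hg' : j (κ' (certW (fun i => mapWord retr (W i))
      (c.map fun t => (t.1, t.2.1, mapWord retr t.2.2)))) = g := by
    rw [← hκ, hmap, ← hg]
    simp [κ]
  refine ⟨_, hg', ?_⟩
  apply coprod_map_injective j hj
  rw [hmap, ← hg, Coprod.map_apply_inl, hg']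

end Pullback

section Tower

variable {G : Type u} [Group G]

/-- The set of coefficient syllables of the words used by a certificate. -/
def usedSyll {P : Type*} {X I : Type*} (W : I → List (P ⊕ FreeGroup X))
    (c : List (I × Bool × List (P ⊕ FreeGroup X))) : Set P :=
  {p | ∃ t ∈ c, Sum.inl p ∈ W t.1 ∨ Sum.inl p ∈ t.2.2}

lemma usedSyll_finite {P : Type*} {X I : Type*} (W : I → List (P ⊕ FreeGroup X))
    (c : List (I × Bool × List (P ⊕ FreeGroup X))) : (usedSyll W c).Finite := by
  have h : usedSyll W c = ⋃ t ∈ {t | t ∈ c},
      ((Sum.inl : P → P ⊕ FreeGroup X) ⁻¹' {a | a ∈ W t.1} ∪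
        (Sum.inl : P → P ⊕ FreeGroup X) ⁻¹' {a | a ∈ t.2.2}) := by
    ext p
    simp [usedSyll]
  rw [h]
  apply Set.Finite.biUnion (List.finite_toSet c)
  intro t _
  exact ((List.finite_toSet _).preimage Sum.inl_injective.injOn).union
    ((List.finite_toSet _).preimage Sum.inl_injective.injOn)

/-- The statement proved by induction: for certificates with at most `Z` nontrivial coefficient
syllables, over any group `P` embedded in `G`, the coefficient expressed by the certificate is
trivial. -/
def TowerAt (G : Type u) [Group G] (Z : ℕ) : Prop :=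
  ∀ (P : Type u) [Group P] (ρ : P →* G), Function.Injective ρ →
    ∀ (I X : Type) (W : I → List (P ⊕ FreeGroup X)),
      LinearIndependent ℚ (fun i => Multiplicative.toAdd (expRow P X (evalW (W i)))) →
      ∀ (c : List (I × Bool × List (P ⊕ FreeGroup X))) (g : P),
        Coprod.inl g = certW W c → costW ρ (⊥ : Subgroup G) W c ≤ Z → g = 1

/-- The terminal case: all coefficient syllables used lie in a subgroup `M` over which every
nonsingular finite system is solvable. -/
theorem tower_terminal {P : Type u} [Group P] (M : Subgroup P) (hM : HowieProperty M)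
    {I X : Type} (W : I → List (P ⊕ FreeGroup X))
    (hW : LinearIndependent ℚ (fun i => Multiplicative.toAdd (expRow P X (evalW (W i)))))
    (c : List (I × Bool × List (P ⊕ FreeGroup X))) (g : P) (hg : Coprod.inl g = certW W c)
    (hall : ∀ p ∈ usedSyll W c, p ∈ M) : g = 1 := by
  classical
  let retr : P → M := fun p => if h : p ∈ M then ⟨p, h⟩ else 1
  have hused : ∀ t ∈ c, ∀ p, (Sum.inl p ∈ W t.1 ∨ Sum.inl p ∈ t.2.2) →
      M.subtype (retr p) = p := by
    intro t ht p hp
    have hpM : p ∈ M := hall p ⟨t, ht, hp⟩
    simp [retr, hpM]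
  obtain ⟨g', hg'1, hg'2⟩ := pullback_cert M.subtype M.subtype_injective retr W c g hused hg
  have hrows : LinearIndependent ℚ fun i =>
      Multiplicative.toAdd (expRow M X (evalW (mapWord retr (W i)))) := by
    simpa only [expRow_evalW_mapWord] using hW
  have hmem := certW_mem (fun i => mapWord retr (W i))
    (c.map fun t => (t.1, t.2.1, mapWord retr t.2.2))
  rw [← hg'2] at hmem
  have := eq_one_of_mem_normalClosure hM _ hrows g' hmem
  rw [← hg'1, this, map_one]

/-- The rewriting step, for a group `P'` with a homomorphism `π` to `ℚ` and a section whose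
cocycle is trivial on a nontrivial used syllable `p₀`. -/
theorem tower_step {P' : Type u} [Group P'] (ρ' : P' →* G) (hρ' : Function.Injective ρ')
    {π : P' →* Multiplicative ℚ} {σ : Multiplicative ℚ → P'} (hσ : IsSect π σ) (hσ1 : σ 1 = 1)
    (p₀ : P') (hp₀bad : p₀ ≠ 1) (hk : ∀ r, kkc hσ p₀ r = 1)
    {I X : Type} (W' : I → List (P' ⊕ FreeGroup X))
    (hW' : LinearIndependent ℚ (fun i => Multiplicative.toAdd (expRow P' X (evalW (W' i)))))
    (c' : List (I × Bool × List (P' ⊕ FreeGroup X))) (g' : P')
    (hg' : Coprod.inl g' = certW W' c')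
    (hused' : ∃ t' ∈ c', Sum.inl p₀ ∈ W' t'.1 ∨ Sum.inl p₀ ∈ t'.2.2)
    (ih : ∀ Z', Z' < costW ρ' (⊥ : Subgroup G) W' c' → TowerAt G Z') : g' = 1 := by
  obtain ⟨q, hq⟩ := exists_levels π (fun i => evalW (W' i)) hW'
  obtain ⟨hgk, hg''⟩ := rewrite_state hσ q W' c' hq hσ1 g' hg'
  have hgood : ∀ p : P', ρ' p ∈ (⊥ : Subgroup G) → π p = 1 := by
    intro p hp
    have h1 : p = 1 := hρ' (by rw [Subgroup.mem_bot.mp hp, map_one])
    rw [h1, map_one]
  have hp₀bad' : ρ' p₀ ∉ (⊥ : Subgroup G) := by
    intro h
    exact hp₀bad (hρ' (by rw [Subgroup.mem_bot.mp h, map_one]))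
  have hlt := costW_rewrite_lt hσ q ρ' (⊥ : Subgroup G) hgood p₀ hp₀bad' hk W' c' hused'
  have hrows : LinearIndependent ℚ fun p : I × Multiplicative ℚ =>
      Multiplicative.toAdd (expRow π.ker (X × Multiplicative ℚ)
        (evalW (rewriteW hσ q (W' p.1) p.2))) := by
    have h1 : (fun p : I × Multiplicative ℚ =>
        Multiplicative.toAdd (expRow π.ker (X × Multiplicative ℚ)
          (evalW (rewriteW hσ q (W' p.1) p.2)))) =
        fun p => shiftRow p.2 (rowS hσ q (evalW (W' p.1)) 1) := by
      funext p
      rw [evalW_rewriteW, ← rowS_eq_shiftRow]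
      rfl
    rw [h1]
    exact linearIndependent_shiftRow_gen (fun i => rowS hσ q (evalW (W' i)) 1)
      (by simpa only [fstRow_rowS] using hW')
  have hρ'' : Function.Injective ((ρ'.comp π.ker.subtype : π.ker →* G)) := by
    intro a b hab
    exact Subtype.ext (hρ' hab)
  have key : (⟨g', hgk⟩ : π.ker) = 1 :=
    ih _ hlt π.ker (ρ'.comp π.ker.subtype) hρ'' (I × Multiplicative ℚ) (X × Multiplicative ℚ)
      (fun p : I × Multiplicative ℚ => rewriteW hσ q (W' p.1) p.2) hrows
      (c'.map fun t => ((t.1, Coprod.lift π (FreeGroup.lift q) (evalW t.2.2)), t.2.1,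
          rewriteW hσ q t.2.2 1)) ⟨g', hgk⟩ hg'' le_rfl
  exact congrArg Subtype.val key

/-- The core statement, by induction on the number of nontrivial coefficient syllables of the
certificate. -/
theorem tower_core
    (hD : ∀ H : Subgroup G, H.FG →
      HowieProperty H ∨ ∃ θ : H →* Multiplicative ℤ, Function.Surjective θ) :
    ∀ Z : ℕ, TowerAt G Z := by
  classical
  intro Z
  induction Z using Nat.strong_induction_on with
  | _ Z ih =>
  intro P _ ρ hρ I X W hW c g hg hcost
  have hFG : (Subgroup.closure (ρ '' usedSyll W c)).FG :=
    (Subgroup.fg_iff _).mpr ⟨ρ '' usedSyll W c, rfl, (usedSyll_finite W c).image ρ⟩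
  rcases hD _ hFG with hHP | ⟨θ, hθ⟩
  · -- terminal case: the subgroup generated by the coefficient syllables used has the property
    have hM : HowieProperty ((Subgroup.closure (ρ '' usedSyll W c)).comap ρ) :=
      howieProperty_of_injective hHP (ρ.subgroupComap _)
        (fun a b hab => Subtype.ext (hρ (congrArg Subtype.val hab)))
    exact tower_terminal _ hM W hW c g hg (fun p hp => Subgroup.subset_closure ⟨p, hp, rfl⟩)
  · -- inductive step: the subgroup generated by the coefficient syllables used maps onto `ℤ`
    obtain ⟨P', πZ, t, p₀, d, hSP, hgood, ht, hp₀, hd, hp₀S⟩ :=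
      exists_indicable_data ρ (usedSyll W c) θ hθ
    let retr : P → P' := fun p => if h : p ∈ P' then ⟨p, h⟩ else 1
    have hretr : ∀ p (hp : p ∈ P'), retr p = ⟨p, hp⟩ := fun p hp => by simp [retr, hp]
    have hused : ∀ t ∈ c, ∀ p, (Sum.inl p ∈ W t.1 ∨ Sum.inl p ∈ t.2.2) →
        P'.subtype (retr p) = p := by
      intro t ht p hp
      have hpP : p ∈ P' := hSP ⟨t, ht, hp⟩
      simp [retr, hpP]
    obtain ⟨g', hg'1, hg'2⟩ := pullback_cert P'.subtype P'.subtype_injective retr W c g hused hg
    have hcost' : costW (ρ.comp P'.subtype) (⊥ : Subgroup G) (fun i => mapWord retr (W i))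
        (c.map fun t => (t.1, t.2.1, mapWord retr t.2.2)) = costW ρ (⊥ : Subgroup G) W c := by
      unfold costW
      rw [List.map_map]
      congr 1
      apply List.map_congr_left
      intro t ht
      simp only [Function.comp_apply]
      rw [badW_mapWord ρ ⊥ P'.subtype retr (W t.1) (fun p hp => hused t ht p (Or.inl hp)),
        badW_mapWord ρ ⊥ P'.subtype retr t.2.2 (fun p hp => hused t ht p (Or.inr hp))]
    have hW' : LinearIndependent ℚ fun i =>
        Multiplicative.toAdd (expRow P' X (evalW (mapWord retr (W i)))) := by
      simpa only [expRow_evalW_mapWord] using hW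
    have hp₀bad : p₀ ≠ 1 := by
      intro h
      have h1 := hgood p₀ (by rw [h]; simp)
      rw [hp₀] at h1
      exact hd (by simpa using congrArg Multiplicative.toAdd h1)
    have hused' : ∃ t' ∈ c.map fun t => (t.1, t.2.1, mapWord retr t.2.2),
        Sum.inl p₀ ∈ mapWord retr (W t'.1) ∨ Sum.inl p₀ ∈ t'.2.2 := by
      obtain ⟨t, ht, hp⟩ := hp₀S
      refine ⟨(t.1, t.2.1, mapWord retr t.2.2), List.mem_map.mpr ⟨t, ht, rfl⟩, ?_⟩
      have hr : retr (p₀ : P) = p₀ := by rw [hretr _ p₀.2]
      rcases hp with hp | hp
      · left
        have := mem_mapWord retr (W t.1) _ hp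
        rwa [hr] at this
      · right
        have := mem_mapWord retr t.2.2 _ hp
        rwa [hr] at this
    have hρ' : Function.Injective (ρ.comp P'.subtype) := fun a b hab => Subtype.ext (hρ hab)
    have hg'one : g' = 1 :=
      tower_step (ρ.comp P'.subtype) hρ' (isSect_zsect ht hp₀) zsect_one p₀ hp₀bad
        (kkc_zsect hd ht hp₀) (fun i => mapWord retr (W i)) hW'
        (c.map fun t => (t.1, t.2.1, mapWord retr t.2.2)) g' hg'2 hused'
        (fun Z' hZ' => ih Z' (lt_of_lt_of_le hZ' (hcost'.le.trans hcost)))
    rw [← hg'1, hg'one, map_one]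

/-- **Main theorem (dichotomy form).** If every finitely generated subgroup of `G` either has
Howie's property or maps onto `ℤ`, then `G` has Howie's property. -/
theorem howieProperty_of_fg_dichotomy
    (hD : ∀ H : Subgroup G, H.FG →
      HowieProperty H ∨ ∃ θ : H →* Multiplicative ℤ, Function.Surjective θ) :
    HowieProperty G := by
  classical
  intro m n w hw
  let R : Subgroup (Coprod G (FreeGroup (Fin n))) := Subgroup.normalClosure (Set.range w)
  refine ⟨Coprod G (FreeGroup (Fin n)) ⧸ R, inferInstance, (QuotientGroup.mk' R).comp Coprod.inl,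
    fun x => QuotientGroup.mk' R (Coprod.inr (FreeGroup.of x)), ?_, ?_⟩
  · rw [injective_iff_map_eq_one]
    intro g hg
    have hgR : (Coprod.inl g : Coprod G (FreeGroup (Fin n))) ∈ R := by
      simpa [QuotientGroup.eq_one_iff] using hg
    obtain ⟨c, hc⟩ := exists_certEl w hgR
    let W : Fin m → List (G ⊕ FreeGroup (Fin n)) := fun i => wordOf (w i)
    let cW : List (Fin m × Bool × List (G ⊕ FreeGroup (Fin n))) :=
      c.map fun t => (t.1, t.2.1, wordOf t.2.2)
    have hcW : Coprod.inl g = certW W cW := by
      rw [hc, certW_eq_certEl]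
      simp [W, cW, evalW_wordOf, Function.comp_def]
    have hrows : LinearIndependent ℚ fun i =>
        Multiplicative.toAdd (expRow G (Fin n) (evalW (W i))) := by
      simp only [W, evalW_wordOf]
      have h0 := hw.map' (Finsupp.linearEquivFunOnFinite ℚ ℚ (Fin n)).symm.toLinearMap
        (LinearMap.ker_eq_bot.mpr (LinearEquiv.injective _))
      have hfun : (fun i => Multiplicative.toAdd (expRow G (Fin n) (w i))) =
          ((Finsupp.linearEquivFunOnFinite ℚ ℚ (Fin n)).symm.toLinearMap ∘
            fun i : Fin m => fun j : Fin n =>
              ((Multiplicative.toAdd (expSum G n (w i)) j : ℤ) : ℚ)) := by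
        funext i
        rw [expRow_fin]
        rfl
      rw [hfun]
      exact h0
    exact tower_core hD (costW (MonoidHom.id G) (⊥ : Subgroup G) W cW) G (MonoidHom.id G)
      Function.injective_id (Fin m) (Fin n) W hrows cW g hcW le_rfl
  · intro i
    have hlift : Coprod.lift ((QuotientGroup.mk' R).comp Coprod.inl)
        (FreeGroup.lift fun x => QuotientGroup.mk' R (Coprod.inr (FreeGroup.of x))) =
        QuotientGroup.mk' R := by
      apply Coprod.hom_ext
      · ext g
        simp
      · ext x
        simp
    rw [hlift]
    exact (QuotientGroup.eq_one_iff _).mpr (Subgroup.subset_normalClosure ⟨i, rfl⟩)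

/-- **Main theorem.** If every nonsingular finite system is solvable over each finitely
generated subgroup of `G` that admits no nontrivial homomorphism to `ℤ`, then every nonsingular
finite system is solvable over `G`. -/
theorem howieProperty_of_fg_nonindicable
    (h : ∀ H : Subgroup G, H.FG → (∀ f : H →* Multiplicative ℤ, f = 1) → HowieProperty H) :
    HowieProperty G := by
  apply howieProperty_of_fg_dichotomy
  intro H hFG
  by_cases hf : ∀ f : H →* Multiplicative ℤ, f = 1
  · exact Or.inl (h H hFG hf)
  · push Not at hf
    obtain ⟨f, hf⟩ := hf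
    obtain ⟨θ, hθ, -⟩ := exists_surjective_of_ne_one f hf
    exact Or.inr ⟨θ, hθ⟩

/-- **Main theorem (criterion).** `G` has Howie's property if and only if every finitely
generated subgroup of `G` that admits no nontrivial homomorphism to `ℤ` has Howie's property. -/
theorem howieProperty_iff_fg_nonindicable :
    HowieProperty G ↔
      ∀ H : Subgroup G, H.FG → (∀ f : H →* Multiplicative ℤ, f = 1) → HowieProperty H :=
  ⟨fun hG H _ _ => howieProperty_of_injective hG H.subtype H.subtype_injective,
    howieProperty_of_fg_nonindicable⟩

/-- **Theorem (relative form).** Let `N` be a subgroup of `G` such that `G` is locally indicable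
relative to `N`.  If every nonsingular finite system of equations over `N` is solvable over `N`,
then every nonsingular finite system of equations over `G` is solvable over `G`. -/
theorem howieProperty_of_relIndicable (N : Subgroup G) (hRI : RelIndicable N)
    (hN : HowieProperty N) : HowieProperty G := by
  apply howieProperty_of_fg_dichotomy
  intro H hFG
  by_cases hHN : H ≤ N
  · exact Or.inl (howieProperty_of_injective hN (Subgroup.inclusion hHN)
      (Subgroup.inclusion_injective hHN))
  · obtain ⟨θ, hθ, -⟩ := hRI H hFG hHN
    exact Or.inr ⟨θ, hθ⟩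

/-- **Theorem.** Let `N` be a normal subgroup of `G` such that `G ⧸ N` is locally indicable
(every nontrivial finitely generated subgroup maps onto `ℤ`).  If every nonsingular finite system
of equations over `N` is solvable over `N`, then every nonsingular finite system of equations
over `G` is solvable over `G`. -/
theorem howieProperty_of_locallyIndicable_quotient (N : Subgroup G) [N.Normal]
    (hLI : ∀ H : Subgroup (G ⧸ N), H.FG → H ≠ ⊥ →
      ∃ θ : H →* Multiplicative ℤ, Function.Surjective θ)
    (hN : HowieProperty N) : HowieProperty G :=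
  howieProperty_of_relIndicable N (relIndicable_of_quotient N hLI) hN

end Tower

/-- **Reduction theorem.** If every nonsingular finite system is solvable over every finitely
generated group admitting no nontrivial homomorphism to `ℤ`, then every nonsingular finite
system is solvable over every group. -/
theorem howieProperty_of_fg_groups
    (h : ∀ (K : Type u) [Group K], Group.FG K → (∀ f : K →* Multiplicative ℤ, f = 1) →
      HowieProperty K) :
    ∀ (G : Type u) [Group G], HowieProperty G := by
  intro G _
  apply howieProperty_of_fg_nonindicable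
  intro H hFG hf
  exact h H ((Group.fg_iff_subgroup_fg H).mpr hFG) hf

end Vale.Agent.H47.Howie
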